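import Mathlib

/-!
# P109, block S5: local models in Euclidean space

`LocModel A D p q lab Ω ν S`: a system `(Ω, ν, S)` with finitely many inverse charts
`psi i : E → Ω`, transition maps `f i i'`, decision functions `g l` and labels.
All regularity is only ever used on full closed balls inside open domains.
-/

open MeasureTheory Set
open scoped ENNReal NNReal ContDiff

namespace Vale.Agent.P109.CH469

universe u

/-- the Euclidean space -/
abbrev EE (D : ℕ) : Type := EuclideanSpace ℝ (Fin D)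

/-- A system `(Ω, ν, S)` with finitely many inverse charts. -/
structure LocModel (A : Type) (D p q : ℕ) (lab : (Fin q → Bool) → Fin p × A)
    (Ω : Type u) [MeasurableSpace Ω] (ν : Measure Ω) (S : Ω → Ω) where
  /-- inverse charts (arbitrary outside `dom i`) -/
  psi : Fin p → EE D → Ω
  /-- charts (arbitrary outside `psi i '' dom i`) -/
  phi : Fin p → Ω → EE D
  /-- chart domains -/
  dom : Fin p → Set (EE D)
  /-- density in the chart -/
  dens : Fin p → EE D → ℝ
  /-- domains of the transition maps -/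
  Dom : Fin p → Fin p → Set (EE D)
  /-- the map in charts -/
  f : Fin p → Fin p → EE D → EE D
  /-- decision functions -/
  g : Fin q → Ω → ℝ
  psi_meas : ∀ i, Measurable (psi i)
  phi_meas : ∀ i, Measurable (phi i)
  S_meas : Measurable S
  g_meas : ∀ l, Measurable (g l)
  dens_meas : ∀ i, Measurable (dens i)
  dom_open : ∀ i, IsOpen (dom i)
  Dom_open : ∀ i i', IsOpen (Dom i i')
  Dom_sub : ∀ i i', Dom i i' ⊆ dom i
  f_smooth : ∀ i i', ContDiffOn ℝ ∞ (f i i') (Dom i i')
  f_maps : ∀ i i', ∀ x ∈ Dom i i', f i i' x ∈ dom i'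
  phi_psi : ∀ i, ∀ x ∈ dom i, phi i (psi i x) = x
  dyn : ∀ i i', ∀ x ∈ Dom i i', S (psi i x) = psi i' (f i i' x)
  image_meas : ∀ i, ∀ B ⊆ dom i, MeasurableSet B → MeasurableSet (psi i '' B)
  image_vol : ∀ i, ∀ B ⊆ dom i, MeasurableSet B →
    ν (psi i '' B) = ∫⁻ x in B, ENNReal.ofReal (dens i x)

namespace LocModel

variable {A : Type} {D p q : ℕ} {lab : (Fin q → Bool) → Fin p × A}
  {Ω : Type u} [MeasurableSpace Ω] {ν : Measure Ω} {S : Ω → Ω}

open Classical in
/-- the label (chart index and letter) of a point -/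
noncomputable def label (X : LocModel A D p q lab Ω ν S) (z : Ω) : Fin p × A :=
  lab (fun l => decide (0 < X.g l z))

/-- the chart index of a point -/
noncomputable def idx (X : LocModel A D p q lab Ω ν S) (z : Ω) : Fin p := (X.label z).1

/-- the letter of a point -/
noncomputable def letter (X : LocModel A D p q lab Ω ν S) (z : Ω) : A := (X.label z).2

/-- The closed ball of radius `r` around `c` is good for the pair of charts `(i, i')`:
it lies in the domain of `f i i'` and all quantities are bounded by `N` there. -/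
def Flag (X : LocModel A D p q lab Ω ν S) (N : ℝ) (i i' : Fin p) (c : EE D) (r : ℝ) : Prop :=
  Metric.closedBall c r ⊆ X.Dom i i' ∧ ∀ x ∈ Metric.closedBall c r,
    ‖x‖ ≤ N ∧
    (∀ m ≤ 2 * D + 4, ‖iteratedFDeriv ℝ m (X.f i i') x‖ ≤ N) ∧
    (∀ v, ‖v‖ ≤ N * ‖fderiv ℝ (X.f i i') x v‖) ∧
    (∀ l, |X.g l (X.psi i x)| ≤ N) ∧
    (∀ l, ∀ y ∈ Metric.closedBall c r, |X.g l (X.psi i x) - X.g l (X.psi i y)| ≤ N * ‖x - y‖) ∧
    (∀ y ∈ Metric.closedBall c r, |X.dens i x - X.dens i y| ≤ N * ‖x - y‖) ∧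
    1 ≤ N * X.dens i x ∧ X.dens i x ≤ N

/-- The point `z` has margin `e` (constant `N`). -/
def Marg (X : LocModel A D p q lab Ω ν S) (N e : ℝ) (z : Ω) : Prop :=
  z ∈ X.psi (X.idx z) '' X.dom (X.idx z) ∧
    X.Flag N (X.idx z) (X.idx (S z)) (X.phi (X.idx z) z) (e / N) ∧
    ∀ l, e < |X.g l z|

/-- regularity with one constant: all points outside a set of measure `≤ N e` have margin `e` -/
def Regular (X : LocModel A D p q lab Ω ν S) (N : ℝ) : Prop :=
  1 ≤ N ∧ ∀ e : ℝ, 0 < e → e ≤ 1 → ν {z | ¬ X.Marg N e z} ≤ ENNReal.ofReal (N * e)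

end LocModel

/-- the law of `n`-names -/
noncomputable def lawOf {A : Type} {Ω : Type u} [MeasurableSpace Ω] (ν : Measure Ω) (S : Ω → Ω)
    (α : Ω → A) (n : ℕ) (w : Fin n → A) : ℝ :=
  (ν {z | ∀ t : Fin n, α (S^[t] z) = w t}).toReal

end Vale.Agent.P109.CH469
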