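import Vale.Agent.P109.CH469.Data
import Vale.Agent.P109.F674.CocLoc
import Vale.Agent.P109.H633.Change

/-!
# P109, block S5: orbits and labels of two models with the same data
-/

open MeasureTheory Set Metric
open scoped ENNReal NNReal ContDiff

namespace Vale.Agent.P109.CH469

open Vale.Agent.P109.Coc

universe u v

variable {A : Type} {D p q : ℕ} {lab : (Fin q → Bool) → Fin p × A}
  {Ω : Type u} [MeasurableSpace Ω] {ν : Measure Ω} {S : Ω → Ω}
  {Ω' : Type v} [MeasurableSpace Ω'] {ν' : Measure Ω'} {S' : Ω' → Ω'}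

theorem LocModel.Flag.monoN {X : LocModel A D p q lab Ω ν S} {N N' : ℝ} {i i' : Fin p}
    {c : EE D} {r : ℝ} (hNN : N ≤ N') (h : X.Flag N i i' c r) : X.Flag N' i i' c r := by
  refine ⟨h.1, fun x hx => ?_⟩
  obtain ⟨h1, h2, h3, h4, h5, h6, h7, h8⟩ := h.2 x hx
  have hN0 : 0 ≤ N := (norm_nonneg _).trans h1
  have hd : 0 ≤ X.dens i x := by
    by_contra hneg
    push Not at hneg
    nlinarith
  refine ⟨h1.trans hNN, fun m hm => (h2 m hm).trans hNN, fun v => (h3 v).trans ?_,
    fun l => (h4 l).trans hNN, fun l y hy => (h5 l y hy).trans ?_, fun y hy => (h6 y hy).trans ?_,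
    h7.trans ?_, h8.trans hNN⟩
  · exact mul_le_mul_of_nonneg_right hNN (norm_nonneg _)
  · exact mul_le_mul_of_nonneg_right hNN (norm_nonneg _)
  · exact mul_le_mul_of_nonneg_right hNN (norm_nonneg _)
  · exact mul_le_mul_of_nonneg_right hNN hd

theorem LocModel.Marg.monoN {X : LocModel A D p q lab Ω ν S} {N N' e : ℝ} {z : Ω}
    (hN : 1 ≤ N) (he : 0 ≤ e) (hNN : N ≤ N') (h : X.Marg N e z) : X.Marg N' e z := by
  refine ⟨h.1, (h.2.1.mono ?_).monoN hNN, h.2.2⟩
  exact closedBall_subset_closedBall (div_le_div_of_nonneg_left he (by linarith) hNN)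

theorem LocModel.Regular.mono {X : LocModel A D p q lab Ω ν S} {N N' : ℝ}
    (h : X.Regular N) (hNN : N ≤ N') : X.Regular N' := by
  refine ⟨h.1.trans hNN, fun e he he1 => ?_⟩
  refine (measure_mono ?_).trans ((h.2 e he he1).trans ?_)
  · intro z hz hz'
    exact hz (hz'.monoN h.1 he.le hNN)
  · exact ENNReal.ofReal_le_ofReal (mul_le_mul_of_nonneg_right hNN he.le)

/-- the maps along an itinerary -/
def LocModel.fs (X : LocModel A D p q lab Ω ν S) (w : ℕ → Fin p × A) : ℕ → EE D → EE D :=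
  fun t => X.f (w t).1 (w (t + 1)).1

theorem LocModel.idx_eq {X : LocModel A D p q lab Ω ν S} {z : Ω} {a : Fin p × A}
    (h : X.label z = a) : X.idx z = a.1 := by rw [← h]; rfl

/-- the orbit in coordinates -/
theorem LocModel.orb_crd {X : LocModel A D p q lab Ω ν S} {N e : ℝ} (hN : 1 ≤ N) (he : 0 ≤ e)
    {n : ℕ} {z : Ω} {w : ℕ → Fin p × A} (hm : ∀ t ≤ n, X.Marg N e (S^[t] z))
    (hw : ∀ t ≤ n, X.label (S^[t] z) = w t) :
    ∀ t ≤ n, H633.orb (X.fs w) (crd X z) t = crd X (S^[t] z) := by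
  intro t
  induction t with
  | zero => intro _; rfl
  | succ t ih =>
    intro ht
    rw [H633.orb_succ, ih (by omega), Function.iterate_succ_apply', ← f_crd hN he (hm t (by omega))]
    unfold LocModel.fs
    rw [← LocModel.idx_eq (hw t (by omega)), ← LocModel.idx_eq (hw (t + 1) ht),
      Function.iterate_succ_apply']

theorem half_pow_le_crad (D B : ℕ) : ((1 : ℝ) / 2) ^ B ≤ crad D B := by
  unfold crad
  have h1 : ((1 : ℝ) / 2) ^ B ≤ (1 / 2) ^ gexp D B :=
    pow_le_pow_of_le_one (by norm_num) (by norm_num) (Nat.div_le_self _ _)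
  have h2 : (0 : ℝ) < (1 / 2) ^ gexp D B := by positivity
  have h3 : (0 : ℝ) ≤ D := by positivity
  nlinarith

/-- a point with margin lies near the centre of a flagged ball -/
theorem LocModel.exists_flag {X : LocModel A D p q lab Ω ν S} {N B : ℕ} (hN : 1 ≤ N) {z : Ω}
    (hm : X.Marg N (6 * N * crad D B) z) :
    ∃ k, dist (crd X z) (gp D N B k) ≤ crad D B ∧
      X.Flag N (X.idx z) (X.idx (S z)) (gp D N B k) (4 * crad D B) := by
  have hN' : (1 : ℝ) ≤ N := by exact_mod_cast hN
  have hc := crad_pos D B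
  have hr : 6 * (N : ℝ) * crad D B / N = 6 * crad D B := by field_simp
  have h1 := hm.2.1
  rw [hr] at h1
  have h2 : ‖crd X z‖ ≤ N := (h1.2 (crd X z) (mem_closedBall_self (by positivity))).1
  obtain ⟨k, hk⟩ := exists_gp D N B (crd X z) h2
  refine ⟨k, hk, h1.mono ?_⟩
  intro y hy
  rw [mem_closedBall] at hy ⊢
  have : dist y (crd X z) ≤ dist y (gp D N B k) + dist (gp D N B k) (crd X z) :=
    dist_triangle _ _ _
  rw [dist_comm (gp D N B k)] at this
  have h3 : dist y (crd X z) ≤ 6 * crad D B := by linarith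
  exact h3

section same

variable {X : LocModel A D p q lab Ω ν S} {X' : LocModel A D p q lab Ω' ν' S'} {N B : ℕ}

/-- labels agree near points with margin -/
theorem label_agree (hN : 1 ≤ N) (h : X.data N B = X'.data N B) {z : Ω}
    (hm : X.Marg N (6 * N * crad D B) z) {k}
    (hk : dist (crd X z) (gp D N B k) ≤ crad D B)
    (hf : X.Flag N (X.idx z) (X.idx (S z)) (gp D N B k) (4 * crad D B)) {y : EE D}
    (hy : dist y (gp D N B k) ≤ 4 * crad D B) :
    X'.label (X'.psi (X.idx z) y) = X.label z := by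
  have hN' : (1 : ℝ) ≤ N := by exact_mod_cast hN
  have hc := crad_pos D B
  have hf' := (LocModel.flag_iff h k _ _).1 hf
  have hj := (LocModel.jets_close hN h k _ _ hf).2.1
  have hB := half_pow_le_crad D B
  have hmem : gp D N B k ∈ closedBall (gp D N B k) (4 * crad D B) :=
    mem_closedBall_self (by positivity)
  have hxmem : crd X z ∈ closedBall (gp D N B k) (4 * crad D B) := by
    rw [mem_closedBall]; linarith
  have hymem : y ∈ closedBall (gp D N B k) (4 * crad D B) := by rwa [mem_closedBall]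
  have hs : ∀ l, (0 < X'.g l (X'.psi (X.idx z) y) ↔ 0 < X.g l z) := by
    intro l
    have h1 := (hf.2 _ hxmem).2.2.2.2.1 l _ hmem
    have h2 := (hf'.2 _ hmem).2.2.2.2.1 l _ hymem
    have h3 := hj l
    have h4 := hm.2.2 l
    rw [psi_crd hm] at h1
    rw [← dist_eq_norm] at h1 h2
    rw [dist_comm] at h2
    have h5 : (N : ℝ) * dist (crd X z) (gp D N B k) ≤ N * crad D B :=
      mul_le_mul_of_nonneg_left hk (by positivity)
    have h6 : (N : ℝ) * dist y (gp D N B k) ≤ N * (4 * crad D B) :=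
      mul_le_mul_of_nonneg_left hy (by positivity)
    have h7 : crad D B ≤ N * crad D B := by nlinarith
    rw [abs_le] at h1 h2 h3
    rcases lt_abs.1 h4 with h8 | h8
    · constructor <;> intro _ <;> linarith
    · constructor <;> intro h9 <;> exfalso <;> linarith
  unfold LocModel.label
  congr 1
  funext l
  by_cases h0 : 0 < X.g l z
  · rw [decide_eq_true h0, decide_eq_true ((hs l).2 h0)]
  · rw [decide_eq_false h0, decide_eq_false (fun h => h0 ((hs l).1 h))]

/-- orbits of the second model which stay near a good orbit of the first one -/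
theorem orbit_agree (hN : 1 ≤ N) (h : X.data N B = X'.data N B) {n : ℕ} {z : Ω}
    {w : ℕ → Fin p × A} (hm : ∀ t ≤ n, X.Marg N (6 * N * crad D B) (S^[t] z))
    (hw : ∀ t ≤ n, X.label (S^[t] z) = w t) {y : EE D}
    (hy : ∀ t ≤ n, dist (H633.orb (X'.fs w) y t) (H633.orb (X.fs w) (crd X z) t) ≤ crad D B) :
    y ∈ X'.dom (w 0).1 ∧ ∀ t ≤ n, X'.label (S'^[t] (X'.psi (w 0).1 y)) = w t := by
  have hN' : (1 : ℝ) ≤ N := by exact_mod_cast hN
  have hc := crad_pos D B
  have horb := LocModel.orb_crd (X := X) hN' (by positivity) hm hw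
  have key : ∀ t ≤ n, ∃ k, dist (H633.orb (X'.fs w) y t) (gp D N B k) ≤ 4 * crad D B ∧
      dist (crd X (S^[t] z)) (gp D N B k) ≤ crad D B ∧
      X.Flag N (X.idx (S^[t] z)) (X.idx (S (S^[t] z))) (gp D N B k) (4 * crad D B) := by
    intro t ht
    obtain ⟨k, hk1, hk2⟩ := LocModel.exists_flag hN (hm t ht)
    refine ⟨k, ?_, hk1, hk2⟩
    have h1 := hy t ht
    rw [horb t ht] at h1
    have := dist_triangle (H633.orb (X'.fs w) y t) (crd X (S^[t] z)) (gp D N B k)
    linarith
  have hmem : ∀ t ≤ n, H633.orb (X'.fs w) y t ∈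
      X'.Dom (X.idx (S^[t] z)) (X.idx (S (S^[t] z))) := by
    intro t ht
    obtain ⟨k, hk1, -, hk3⟩ := key t ht
    exact ((LocModel.flag_iff h k _ _).1 hk3).1 (mem_closedBall.2 hk1)
  have horb' : ∀ t ≤ n, S'^[t] (X'.psi (w 0).1 y) = X'.psi (w t).1 (H633.orb (X'.fs w) y t) := by
    intro t
    induction t with
    | zero => intro _; rfl
    | succ t ih =>
      intro ht
      have h1 := hmem t (by omega)
      rw [LocModel.idx_eq (hw t (by omega)), ← Function.iterate_succ_apply' (f := S),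
        LocModel.idx_eq (hw (t + 1) ht)] at h1
      rw [Function.iterate_succ_apply', ih (by omega), X'.dyn _ _ _ h1]
      rfl
  refine ⟨?_, fun t ht => ?_⟩
  · have h1 := hmem 0 (Nat.zero_le _)
    rw [LocModel.idx_eq (hw 0 (Nat.zero_le _))] at h1
    exact X'.Dom_sub _ _ h1
  · obtain ⟨k, hk1, hk2, hk3⟩ := key t ht
    have h1 := label_agree hN h (hm t ht) hk2 hk3 hk1
    rw [horb' t ht, ← LocModel.idx_eq (hw t ht), h1, hw t ht]

/-- densities are comparable near points with margin -/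
theorem dens_agree (hN : 1 ≤ N) (hsm : 12 * (N : ℝ) ^ 2 * crad D B ≤ 1)
    (h : X.data N B = X'.data N B) {z : Ω} (hm : X.Marg N (6 * N * crad D B) z) {y : EE D}
    (hy : dist y (crd X z) ≤ crad D B) :
    ENNReal.ofReal (X.dens (X.idx z) (crd X z)) ≤
      (3 / 2) * ENNReal.ofReal (X'.dens (X.idx z) y) := by
  have hN' : (1 : ℝ) ≤ N := by exact_mod_cast hN
  have hc := crad_pos D B
  obtain ⟨k, hk, hf⟩ := LocModel.exists_flag hN hm
  have hf' := (LocModel.flag_iff h k _ _).1 hf
  have hj := (LocModel.jets_close hN h k _ _ hf).2.2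
  have hB := half_pow_le_crad D B
  have hmem : gp D N B k ∈ closedBall (gp D N B k) (4 * crad D B) :=
    mem_closedBall_self (by positivity)
  have hxmem : crd X z ∈ closedBall (gp D N B k) (4 * crad D B) := by
    rw [mem_closedBall]; linarith
  have hyk : dist y (gp D N B k) ≤ 2 * crad D B := by
    have := dist_triangle y (crd X z) (gp D N B k)
    linarith
  have hymem : y ∈ closedBall (gp D N B k) (4 * crad D B) := by
    rw [mem_closedBall]; linarith
  have h1 := (hf.2 _ hxmem).2.2.2.2.2.1 _ hmem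
  have h2 := (hf'.2 _ hmem).2.2.2.2.2.1 _ hymem
  have h3 := (hf'.2 _ hymem).2.2.2.2.2.2.1
  rw [← dist_eq_norm] at h1 h2
  rw [dist_comm] at h2
  have h5 : (N : ℝ) * dist (crd X z) (gp D N B k) ≤ N * crad D B :=
    mul_le_mul_of_nonneg_left hk (by positivity)
  have h6 : (N : ℝ) * dist y (gp D N B k) ≤ N * (2 * crad D B) :=
    mul_le_mul_of_nonneg_left hyk (by positivity)
  have h7 : crad D B ≤ N * crad D B := by nlinarith
  rw [abs_le] at h1 h2 hj
  have h8 : X.dens (X.idx z) (crd X z) ≤ X'.dens (X.idx z) y + 6 * N * crad D B := by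
    linarith
  have h9 : 6 * (N : ℝ) * crad D B ≤ (1 / 2) * X'.dens (X.idx z) y := by
    have h10 : (N : ℝ) * (6 * N * crad D B) ≤ 1 / 2 := by nlinarith
    have h11 : (N : ℝ) * (6 * N * crad D B) ≤ N * ((1 / 2) * X'.dens (X.idx z) y) := by
      nlinarith
    exact le_of_mul_le_mul_left h11 (by positivity)
  have h12 : X.dens (X.idx z) (crd X z) ≤ (3 / 2) * X'.dens (X.idx z) y := by linarith
  calc ENNReal.ofReal (X.dens (X.idx z) (crd X z))
      ≤ ENNReal.ofReal ((3 / 2) * X'.dens (X.idx z) y) := ENNReal.ofReal_le_ofReal h12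
    _ = (3 / 2) * ENNReal.ofReal (X'.dens (X.idx z) y) := by
        rw [ENNReal.ofReal_mul (by norm_num), ENNReal.ofReal_div_of_pos (by norm_num)]
        simp

/-- closeness of the maps on flagged balls -/
theorem maps_close (hN : 1 ≤ N) (hr : 4 * crad D B ≤ 1) (h : X.data N B = X'.data N B) {k}
    {i i' : Fin p} (hf : X.Flag N i i' (gp D N B k) (4 * crad D B)) {x : EE D}
    (hx : x ∈ ball (gp D N B k) (4 * crad D B)) :
    ‖X'.f i i' x - X.f i i' x‖ ≤ eps0 D N B ∧
      ‖fderiv ℝ (X'.f i i') x - fderiv ℝ (X.f i i') x‖ ≤ eps0 D N B := by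
  have hc := crad_pos D B
  have hf' := (LocModel.flag_iff h k _ _).1 hf
  have hj := (LocModel.jets_close hN h k _ _ hf).1
  have h1 := close_of_jets (f := X.f i i') (f' := X'.f i i') (c := gp D N B k)
    (r := 4 * crad D B) (δ := (1 / 2) ^ B) (N := N) (k := 2 * D + 4) (by omega) (by positivity)
    hr (by positivity)
    ((X.f_smooth i i').mono (ball_subset_closedBall.trans hf.1))
    ((X'.f_smooth i i').mono (ball_subset_closedBall.trans hf'.1))
    (fun y hy => (hf.2 y (ball_subset_closedBall hy)).2.1 _ le_rfl)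
    (fun y hy => (hf'.2 y (ball_subset_closedBall hy)).2.1 _ le_rfl) hj x hx
  rw [show 2 * D + 4 - 2 = 2 * D + 2 by omega] at h1
  refine ⟨?_, ?_⟩
  · rw [norm_sub_rev]; exact h1.1
  · rw [norm_sub_rev]; exact h1.2.1

end same

end Vale.Agent.P109.CH469
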