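import Mathlib

/-!
# P109, block S5: closeness in `C²` from closeness of jets at the centre of a ball
-/

open Set Metric
open scoped ContDiff

namespace Vale.Agent.P109.CH469

section
variable {E F : Type*} [NormedAddCommGroup E] [NormedSpace ℝ E] [NormedAddCommGroup F]
  [NormedSpace ℝ F]

/-- downward induction on the order of the derivative -/
theorem jet_descent {w : E → F} {c : E} {r δ M : ℝ} {k : ℕ} (hr : 0 < r) (hr1 : r ≤ 1)
    (hδ : 0 ≤ δ) (hM : 0 ≤ M) (hw : ContDiffOn ℝ ∞ w (ball c r))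
    (hc : ∀ m < k, ‖iteratedFDeriv ℝ m w c‖ ≤ δ)
    (hk : ∀ x ∈ ball c r, ‖iteratedFDeriv ℝ k w x‖ ≤ M) :
    ∀ i ≤ k, ∀ x ∈ ball c r, ‖iteratedFDeriv ℝ (k - i) w x‖ ≤ i * δ + r ^ i * M := by
  intro i
  induction i with
  | zero => intro _ x hx; simpa using hk x hx
  | succ i ih =>
    intro hi x hx
    have ih' := ih (by omega)
    set m := k - (i + 1) with hm
    have hm1 : k - i = m + 1 := by omega
    rw [hm1] at ih'
    have hdiff : ∀ y ∈ ball c r, DifferentiableAt ℝ (iteratedFDeriv ℝ m w) y := by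
      intro y hy
      have h1 : ContDiffAt ℝ ∞ w y := (hw y hy).contDiffAt (isOpen_ball.mem_nhds hy)
      exact h1.differentiableAt_iteratedFDeriv (by exact_mod_cast ENat.natCast_lt_top m)
    have hbound : ∀ y ∈ ball c r, ‖fderiv ℝ (iteratedFDeriv ℝ m w) y‖ ≤ i * δ + r ^ i * M := by
      intro y hy
      rw [norm_fderiv_iteratedFDeriv]
      exact ih' y hy
    have h2 := (convex_ball c r).norm_image_sub_le_of_norm_fderiv_le hdiff hbound
      (mem_ball_self hr) hx
    have h3 : ‖x - c‖ ≤ r := by rw [← dist_eq_norm]; exact (mem_ball.1 hx).le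
    have h4 : 0 ≤ (i : ℝ) * δ + r ^ i * M := by positivity
    calc ‖iteratedFDeriv ℝ m w x‖
        = ‖iteratedFDeriv ℝ m w c + (iteratedFDeriv ℝ m w x - iteratedFDeriv ℝ m w c)‖ := by
          congr 1; abel
      _ ≤ ‖iteratedFDeriv ℝ m w c‖ + ‖iteratedFDeriv ℝ m w x - iteratedFDeriv ℝ m w c‖ :=
          norm_add_le _ _
      _ ≤ δ + (i * δ + r ^ i * M) * r := by
          refine add_le_add (hc m (by omega)) (h2.trans ?_)
          exact mul_le_mul_of_nonneg_left h3 h4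
      _ ≤ ((i + 1 : ℕ) : ℝ) * δ + r ^ (i + 1) * M := by
          push_cast
          have h5 : (i : ℝ) * δ * r ≤ i * δ := by
            have : 0 ≤ (i : ℝ) * δ := by positivity
            nlinarith
          rw [pow_succ]
          nlinarith

/-- Two maps with close jets at the centre are `C²`-close on the ball. -/
theorem close_of_jets {f f' : E → F} {c : E} {r δ N : ℝ} {k : ℕ} (hk2 : 2 ≤ k) (hr : 0 < r)
    (hr1 : r ≤ 1) (hδ : 0 ≤ δ) (hf : ContDiffOn ℝ ∞ f (ball c r))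
    (hf' : ContDiffOn ℝ ∞ f' (ball c r))
    (hN : ∀ x ∈ ball c r, ‖iteratedFDeriv ℝ k f x‖ ≤ N)
    (hN' : ∀ x ∈ ball c r, ‖iteratedFDeriv ℝ k f' x‖ ≤ N)
    (hc : ∀ m < k, ‖iteratedFDeriv ℝ m f c - iteratedFDeriv ℝ m f' c‖ ≤ δ) :
    ∀ x ∈ ball c r,
      ‖f x - f' x‖ ≤ k * δ + r ^ (k - 2) * (2 * N) ∧
      ‖fderiv ℝ f x - fderiv ℝ f' x‖ ≤ k * δ + r ^ (k - 2) * (2 * N) ∧
      ‖fderiv ℝ (fderiv ℝ f) x - fderiv ℝ (fderiv ℝ f') x‖ ≤ k * δ + r ^ (k - 2) * (2 * N) := by
  have hN0 : 0 ≤ N := (norm_nonneg _).trans (hN c (mem_ball_self hr))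
  have hat : ∀ x ∈ ball c r, ContDiffAt ℝ ∞ f x := fun x hx =>
    (hf x hx).contDiffAt (isOpen_ball.mem_nhds hx)
  have hat' : ∀ x ∈ ball c r, ContDiffAt ℝ ∞ f' x := fun x hx =>
    (hf' x hx).contDiffAt (isOpen_ball.mem_nhds hx)
  have hle : ∀ m : ℕ, (m : WithTop ℕ∞) ≤ ∞ := fun m => by exact_mod_cast le_top
  have hsub : ∀ x ∈ ball c r, ∀ m : ℕ, iteratedFDeriv ℝ m (f - f') x =
      iteratedFDeriv ℝ m f x - iteratedFDeriv ℝ m f' x := fun x hx m =>
    iteratedFDeriv_sub_apply ((hat x hx).of_le (hle m)) ((hat' x hx).of_le (hle m))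
  have hw : ContDiffOn ℝ ∞ (f - f') (ball c r) := hf.sub hf'
  have hd := jet_descent (w := f - f') (M := 2 * N) hr hr1 hδ (by positivity) hw
    (fun m hm => by rw [hsub c (mem_ball_self hr) m]; exact hc m hm)
    (fun x hx => by
      rw [hsub x hx k]
      calc _ ≤ ‖iteratedFDeriv ℝ k f x‖ + ‖iteratedFDeriv ℝ k f' x‖ := norm_sub_le _ _
        _ ≤ 2 * N := by linarith [hN x hx, hN' x hx])
  have hgen : ∀ m ≤ 2, ∀ x ∈ ball c r, ‖iteratedFDeriv ℝ m (f - f') x‖ ≤
      k * δ + r ^ (k - 2) * (2 * N) := by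
    intro m hm x hx
    have h1 := hd (k - m) (Nat.sub_le _ _) x hx
    rw [show k - (k - m) = m by omega] at h1
    refine h1.trans (add_le_add ?_ ?_)
    · refine mul_le_mul_of_nonneg_right ?_ hδ
      exact_mod_cast Nat.sub_le _ _
    · refine mul_le_mul_of_nonneg_right ?_ (by positivity)
      exact pow_le_pow_of_le_one hr.le hr1 (by omega)
  intro x hx
  have hd1 : fderiv ℝ (f - f') =ᶠ[nhds x] fun y => fderiv ℝ f y - fderiv ℝ f' y := by
    filter_upwards [isOpen_ball.mem_nhds hx] with y hy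
    exact fderiv_sub ((hat y hy).differentiableAt (by simp)) ((hat' y hy).differentiableAt (by simp))
  have hdd : ∀ g : E → F, ContDiffAt ℝ ∞ g x → DifferentiableAt ℝ (fderiv ℝ g) x := by
    intro g hg
    have : ContDiffAt ℝ 1 (fderiv ℝ g) x := hg.fderiv_right (m := 1) (by rw [one_add_one_eq_two]; exact hle 2)
    exact this.differentiableAt (by simp)
  refine ⟨?_, ?_, ?_⟩
  · have := hgen 0 (by norm_num) x hx
    rwa [norm_iteratedFDeriv_zero] at this
  · have := hgen 1 (by norm_num) x hx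
    rw [norm_iteratedFDeriv_one, hd1.self_of_nhds] at this
    exact this
  · have := hgen 2 (by norm_num) x hx
    rw [← norm_iteratedFDeriv_fderiv, norm_iteratedFDeriv_one, hd1.fderiv_eq] at this
    rw [← fderiv_fun_sub (hdd f (hat x hx)) (hdd f' (hat' x hx))]
    exact this

end

end Vale.Agent.P109.CH469
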