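import Mathlib

/-!
# P109, block S5: rounding in finite-dimensional normed spaces
-/

open Set

namespace Vale.Agent.P109.CH469

/-- rounding of a real number of absolute value `≤ K / s` to a multiple of `1 / s` -/
noncomputable def rnd (K s : ℕ) (x : ℝ) : Fin (2 * K + 1) :=
  ⟨min (2 * K) (⌊x * s⌋ + K).toNat, by omega⟩

theorem rnd_spec {K s M : ℕ} (hs : 0 < s) (hK : M * s ≤ K) {x y : ℝ} (hx : |x| ≤ M)
    (hy : |y| ≤ M) (h : rnd K s x = rnd K s y) : |x - y| ≤ 1 / s := by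
  have hs' : (0 : ℝ) < s := by exact_mod_cast hs
  have key : ∀ z : ℝ, |z| ≤ M → -(K : ℤ) ≤ ⌊z * s⌋ ∧ ⌊z * s⌋ ≤ K := by
    intro z hz
    have hMK : (M : ℝ) * s ≤ K := by exact_mod_cast hK
    have h1 := abs_le.1 hz
    constructor
    · rw [Int.le_floor]
      push_cast
      nlinarith [mul_le_mul_of_nonneg_right h1.1 hs'.le]
    · have : (⌊z * s⌋ : ℝ) ≤ K := (Int.floor_le _).trans
        ((mul_le_mul_of_nonneg_right h1.2 hs'.le).trans hMK)
      exact_mod_cast this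
  have hx' := key x hx
  have hy' := key y hy
  have h2 : ⌊x * s⌋ = ⌊y * s⌋ := by
    have h3 := congrArg Fin.val h
    simp only [rnd] at h3
    omega
  have h4 : |x * s - y * s| < 1 := Int.abs_sub_lt_one_of_floor_eq_floor h2
  rw [← sub_mul, abs_mul, abs_of_pos hs'] at h4
  rw [le_div_iff₀ hs']
  exact h4.le

/-- In a finite-dimensional normed space, vectors of norm `≤ N` can be rounded up to `2 ^ (-B)`
using `O(B + 1)` bits. -/
theorem exists_rounding (V : Type*) [NormedAddCommGroup V] [NormedSpace ℝ V]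
    [FiniteDimensional ℝ V] (N : ℝ) :
    ∃ c : ℕ, ∀ B : ℕ, ∃ R : V → Fin (2 ^ (c * (B + 1))), ∀ v v' : V, ‖v‖ ≤ N → ‖v'‖ ≤ N →
      R v = R v' → ‖v - v'‖ ≤ (1 / 2) ^ B := by
  classical
  let d := Module.finrank ℝ V
  let e : V ≃L[ℝ] (Fin d → ℝ) := ContinuousLinearEquiv.ofFinrankEq (by simp [d])
  obtain ⟨M, hM⟩ := exists_nat_ge (‖(e : V →L[ℝ] (Fin d → ℝ))‖ * |N|)
  obtain ⟨a₁, ha₁⟩ : ∃ a : ℕ, ‖(e.symm : (Fin d → ℝ) →L[ℝ] V)‖ ≤ 2 ^ a :=
    ((tendsto_pow_atTop_atTop_of_one_lt (one_lt_two (α := ℝ))).eventually_ge_atTop _).exists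
  obtain ⟨a₂, ha₂⟩ : ∃ a : ℕ, (M : ℝ) ≤ 2 ^ a :=
    ((tendsto_pow_atTop_atTop_of_one_lt (one_lt_two (α := ℝ))).eventually_ge_atTop _).exists
  obtain ⟨a, ha⟩ : ∃ a, a = a₁ + a₂ := ⟨_, rfl⟩
  have ha1 : ‖(e.symm : (Fin d → ℝ) →L[ℝ] V)‖ ≤ 2 ^ a :=
    ha₁.trans (pow_le_pow_right₀ one_le_two (by omega))
  have ha2 : M ≤ 2 ^ a := by
    have : (M : ℝ) ≤ 2 ^ a := ha₂.trans (pow_le_pow_right₀ one_le_two (by omega))
    exact_mod_cast this
  refine ⟨(2 * a + 2) * d, fun B => ?_⟩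
  let s : ℕ := 2 ^ (a + B)
  let K : ℕ := 2 ^ a * s
  have hs : 0 < s := by positivity
  have hK : M * s ≤ K := Nat.mul_le_mul_right _ ha2
  let ι := Fin d → Fin (2 * K + 1)
  have hcard : Fintype.card ι ≤ Fintype.card (Fin (2 ^ ((2 * a + 2) * d * (B + 1)))) := by
    simp only [ι, Fintype.card_fun, Fintype.card_fin]
    have h1 : 2 * K + 1 ≤ 2 ^ ((2 * a + 2) * (B + 1)) := by
      have h2 : 2 * K + 1 ≤ 2 ^ (2 * a + B + 2) := by
        have : 2 ^ (2 * a + B + 2) = 4 * K := by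
          simp only [K, s]; rw [← pow_add, show 2 * a + B + 2 = (a + (a + B)) + 2 by ring, pow_add]
          ring
        rw [this]
        have : 0 < K := by positivity
        omega
      refine h2.trans (Nat.pow_le_pow_right (by norm_num) ?_)
      nlinarith
    calc (2 * K + 1) ^ d ≤ (2 ^ ((2 * a + 2) * (B + 1))) ^ d := Nat.pow_le_pow_left h1 d
      _ = 2 ^ ((2 * a + 2) * d * (B + 1)) := by rw [← pow_mul]; ring_nf
  obtain ⟨j⟩ := Function.Embedding.nonempty_of_card_le hcard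
  refine ⟨fun v => j (fun i => rnd K s (e v i)), fun v v' hv hv' h => ?_⟩
  have h1 := j.injective h
  have hb : ∀ w : V, ‖w‖ ≤ N → ∀ i, |e w i| ≤ M := by
    intro w hw i
    have h2 : ‖e w i‖ ≤ ‖e w‖ := norm_le_pi_norm (e w) i
    have h3 : ‖e w‖ ≤ ‖(e : V →L[ℝ] (Fin d → ℝ))‖ * ‖w‖ :=
      (e : V →L[ℝ] (Fin d → ℝ)).le_opNorm w
    rw [Real.norm_eq_abs] at h2
    refine h2.trans (h3.trans (le_trans ?_ hM))
    exact mul_le_mul_of_nonneg_left (hw.trans (le_abs_self N)) (norm_nonneg _)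
  have h2 : ‖e v - e v'‖ ≤ 1 / s := by
    rw [pi_norm_le_iff_of_nonneg (by positivity)]
    intro i
    have h3 := congrFun h1 i
    have := rnd_spec hs hK (hb v hv i) (hb v' hv' i) h3
    simpa [Real.norm_eq_abs] using this
  have h3 : v - v' = e.symm (e v - e v') := by simp
  rw [h3]
  calc ‖e.symm (e v - e v')‖ ≤ ‖(e.symm : (Fin d → ℝ) →L[ℝ] V)‖ * ‖e v - e v'‖ :=
        (e.symm : (Fin d → ℝ) →L[ℝ] V).le_opNorm _
    _ ≤ 2 ^ a * (1 / s) := mul_le_mul ha1 h2 (norm_nonneg _) (by positivity)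
    _ = (1 / 2) ^ B := by
        simp only [s]
        push_cast
        rw [pow_add, one_div_pow]
        field_simp

end Vale.Agent.P109.CH469
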