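import Vale.Agent.P109.CH469.LocModel
import Vale.Agent.P109.CH469.Round
import Vale.Agent.P109.CH469.Jet

/-!
# P109, block S5: finite data of a local model
-/

open MeasureTheory Set Metric
open scoped ENNReal NNReal ContDiff

namespace Vale.Agent.P109.CH469

universe u v

/-! ### grid points -/

theorem rnd_val {K s M : ℕ} (hs : 0 < s) (hK : M * s ≤ K) {x : ℝ} (hx : |x| ≤ M) :
    |x - (((rnd K s x : ℕ) : ℝ) - K) / s| ≤ 1 / s := by
  have hs' : (0 : ℝ) < s := by exact_mod_cast hs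
  have hMK : (M : ℝ) * s ≤ K := by exact_mod_cast hK
  have h1 := abs_le.1 hx
  have hlo : -(K : ℤ) ≤ ⌊x * s⌋ := by
    rw [Int.le_floor]
    push_cast
    nlinarith [mul_le_mul_of_nonneg_right h1.1 hs'.le]
  have hhi : ⌊x * s⌋ ≤ K := by
    have : (⌊x * s⌋ : ℝ) ≤ K := (Int.floor_le _).trans
      ((mul_le_mul_of_nonneg_right h1.2 hs'.le).trans hMK)
    exact_mod_cast this
  have h2 : ((rnd K s x : ℕ) : ℤ) = ⌊x * s⌋ + K := by
    simp only [rnd]
    omega
  have h3 : ((rnd K s x : ℕ) : ℝ) - K = (⌊x * s⌋ : ℝ) := by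
    have h4 : ((rnd K s x : ℕ) : ℝ) = (((rnd K s x : ℕ) : ℤ) : ℝ) := by norm_cast
    rw [h4, h2]; push_cast; ring
  rw [h3]
  have h5 : x - (⌊x * s⌋ : ℝ) / s = (x * s - ⌊x * s⌋) / s := by field_simp
  rw [h5, abs_div, abs_of_pos hs']
  refine div_le_div_of_nonneg_right ?_ hs'.le
  have h6 := Int.floor_le (x * s)
  have h7 := (Int.lt_floor_add_one (x * s)).le
  rw [abs_le]
  constructor <;> linarith

/-- grid points -/
noncomputable def gpt (D b G : ℕ) (k : Fin D → Fin (2 * G + 1)) : EE D :=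
  WithLp.toLp 2 (fun i => (((k i : ℕ) : ℝ) - G) / (2 : ℝ) ^ b)

theorem norm_le_of_coord {D : ℕ} {t : ℝ} (ht : 0 ≤ t) (v : EE D) (hv : ∀ i, |v i| ≤ t) :
    ‖v‖ ≤ (D + 1) * t := by
  rw [EuclideanSpace.norm_eq]
  have h1 : ∑ i, ‖v i‖ ^ 2 ≤ ((D + 1) * t) ^ 2 := by
    calc ∑ i, ‖v i‖ ^ 2 ≤ ∑ _i : Fin D, t ^ 2 := by
          refine Finset.sum_le_sum fun i _ => ?_
          rw [Real.norm_eq_abs]
          exact pow_le_pow_left₀ (abs_nonneg _) (hv i) 2
      _ = D * t ^ 2 := by simp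
      _ ≤ ((D + 1) * t) ^ 2 := by
          rw [mul_pow]
          refine mul_le_mul_of_nonneg_right ?_ (by positivity)
          have : (0 : ℝ) ≤ D := by positivity
          nlinarith
  calc Real.sqrt (∑ i, ‖v i‖ ^ 2) ≤ Real.sqrt (((D + 1) * t) ^ 2) := Real.sqrt_le_sqrt h1
    _ = (D + 1) * t := Real.sqrt_sq (by positivity)

theorem exists_gpt (D b M : ℕ) (x : EE D) (hx : ‖x‖ ≤ M) :
    ∃ k, dist x (gpt D b (M * 2 ^ b) k) ≤ (D + 1) * (1 / 2) ^ b := by
  refine ⟨fun i => rnd (M * 2 ^ b) (2 ^ b) (x i), ?_⟩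
  rw [dist_eq_norm]
  refine norm_le_of_coord (by positivity) _ fun i => ?_
  have h1 : |x i| ≤ M := by
    have := PiLp.norm_apply_le x i
    rw [Real.norm_eq_abs] at this
    exact this.trans hx
  have h2 := rnd_val (K := M * 2 ^ b) (s := 2 ^ b) (M := M) (by positivity) le_rfl h1
  have h3 : (x - gpt D b (M * 2 ^ b) fun i => rnd (M * 2 ^ b) (2 ^ b) (x i)) i =
      x i - (((rnd (M * 2 ^ b) (2 ^ b) (x i) : ℕ) : ℝ) - ((M * 2 ^ b : ℕ) : ℝ)) /
        ((2 ^ b : ℕ) : ℝ) := by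
    simp [gpt]
  rw [h3]
  refine h2.trans (le_of_eq ?_)
  push_cast
  rw [one_div_pow]

/-! ### jets -/

/-- the space of jets -/
abbrev JetSp (D p q : ℕ) : Type :=
  Fin p → Fin p →
    ((∀ m : Fin (2 * D + 4), (EE D) [×(m : ℕ)]→L[ℝ] (EE D)) × (Fin q → ℝ) × ℝ)

instance finDimCMM (D m : ℕ) : FiniteDimensional ℝ ((EE D) [×m]→L[ℝ] (EE D)) :=
  FiniteDimensional.of_injective
    (ContinuousMultilinearMap.toMultilinearMapLinear (A := ℝ) (R' := ℝ))
    ContinuousMultilinearMap.toMultilinearMap_injective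

/-- number of bits -/
noncomputable def cst (D p q : ℕ) (N : ℕ) : ℕ :=
  Classical.choose (exists_rounding (JetSp D p q) N)

/-- rounding of jets -/
noncomputable def Rd (D p q : ℕ) (N B : ℕ) : JetSp D p q → Fin (2 ^ (cst D p q N * (B + 1))) :=
  Classical.choose (Classical.choose_spec (exists_rounding (JetSp D p q) N) B)

theorem Rd_spec (D p q : ℕ) (N B : ℕ) {v v' : JetSp D p q} (hv : ‖v‖ ≤ N) (hv' : ‖v'‖ ≤ N)
    (h : Rd D p q N B v = Rd D p q N B v') : ‖v - v'‖ ≤ (1 / 2) ^ B :=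
  Classical.choose_spec (Classical.choose_spec (exists_rounding (JetSp D p q) N) B) v v' hv hv' h

/-- grid exponent -/
def gexp (D B : ℕ) : ℕ := B / (2 * (D + 1))

/-- covering radius of the grid -/
noncomputable def crad (D B : ℕ) : ℝ := (D + 1) * (1 / 2) ^ gexp D B

theorem crad_pos (D B : ℕ) : 0 < crad D B := by unfold crad; positivity

/-- the grid point with index `k` -/
noncomputable def gp (D N B : ℕ) (k : Fin D → Fin (2 * (N * 2 ^ gexp D B) + 1)) : EE D :=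
  gpt D (gexp D B) (N * 2 ^ gexp D B) k

theorem exists_gp (D N B : ℕ) (x : EE D) (hx : ‖x‖ ≤ N) :
    ∃ k, dist x (gp D N B k) ≤ crad D B :=
  exists_gpt D (gexp D B) N x hx

namespace LocModel

variable {A : Type} {D p q : ℕ} {lab : (Fin q → Bool) → Fin p × A}
  {Ω : Type u} [MeasurableSpace Ω] {ν : Measure Ω} {S : Ω → Ω}
  {Ω' : Type v} [MeasurableSpace Ω'] {ν' : Measure Ω'} {S' : Ω' → Ω'}

open Classical in
/-- the jet at a grid point (zero when not flagged) -/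
noncomputable def jet (X : LocModel A D p q lab Ω ν S) (N : ℝ) (c : EE D) (r : ℝ) :
    JetSp D p q := fun i i' =>
  if X.Flag N i i' c r then
    (fun m => iteratedFDeriv ℝ m (X.f i i') c, fun l => X.g l (X.psi i c), X.dens i c)
  else 0

theorem norm_jet_le (X : LocModel A D p q lab Ω ν S) {N : ℝ} (hN : 1 ≤ N) (c : EE D) {r : ℝ}
    (hr : 0 ≤ r) : ‖X.jet N c r‖ ≤ N := by
  have hN0 : 0 ≤ N := by linarith
  rw [pi_norm_le_iff_of_nonneg hN0]; intro i
  rw [pi_norm_le_iff_of_nonneg hN0]; intro i'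
  unfold jet
  by_cases h : X.Flag N i i' c r
  · rw [if_pos h]
    have hc := h.2 c (mem_closedBall_self hr)
    have hd : 0 ≤ X.dens i c := by
      have := hc.2.2.2.2.2.2.1
      by_contra hneg
      push Not at hneg
      nlinarith
    refine norm_prod_le_iff.2 ⟨?_, norm_prod_le_iff.2 ⟨?_, ?_⟩⟩
    · rw [pi_norm_le_iff_of_nonneg hN0]; intro m
      exact hc.2.1 m m.2.le
    · rw [pi_norm_le_iff_of_nonneg hN0]; intro l
      rw [Real.norm_eq_abs]
      exact hc.2.2.2.1 l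
    · show ‖X.dens i c‖ ≤ N
      rw [Real.norm_eq_abs, abs_of_nonneg hd]
      exact hc.2.2.2.2.2.2.2
  · rw [if_neg h]; simpa using hN0

theorem Flag.mono {X : LocModel A D p q lab Ω ν S} {N : ℝ} {i i' : Fin p} {c c' : EE D}
    {r r' : ℝ} (h : X.Flag N i i' c r) (hb : closedBall c' r' ⊆ closedBall c r) :
    X.Flag N i i' c' r' := by
  refine ⟨hb.trans h.1, fun x hx => ?_⟩
  obtain ⟨h1, h2, h3, h4, h5, h6, h7, h8⟩ := h.2 x (hb hx)
  exact ⟨h1, h2, h3, h4, fun l y hy => h5 l y (hb hy), fun y hy => h6 y (hb hy), h7, h8⟩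

end LocModel

/-- the type of data -/
abbrev DataT (D p q N B : ℕ) : Type :=
  (Fin D → Fin (2 * (N * 2 ^ gexp D B) + 1)) →
    (Fin p → Fin p → Bool) × Fin (2 ^ (cst D p q N * (B + 1)))

namespace LocModel

variable {A : Type} {D p q : ℕ} {lab : (Fin q → Bool) → Fin p × A}
  {Ω : Type u} [MeasurableSpace Ω] {ν : Measure Ω} {S : Ω → Ω}
  {Ω' : Type v} [MeasurableSpace Ω'] {ν' : Measure Ω'} {S' : Ω' → Ω'}

open Classical in
/-- the data of a local model -/
noncomputable def data (X : LocModel A D p q lab Ω ν S) (N B : ℕ) : DataT D p q N B := fun k =>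
  (fun i i' => decide (X.Flag N i i' (gp D N B k) (4 * crad D B)),
    Rd D p q N B (X.jet N (gp D N B k) (4 * crad D B)))

section same

variable {X : LocModel A D p q lab Ω ν S} {X' : LocModel A D p q lab Ω' ν' S'} {N B : ℕ}

theorem flag_iff (h : X.data N B = X'.data N B) (k) (i i' : Fin p) :
    X.Flag N i i' (gp D N B k) (4 * crad D B) ↔ X'.Flag N i i' (gp D N B k) (4 * crad D B) := by
  have h1 := congrFun h k
  have h2 := congrFun (congrFun (congrArg Prod.fst h1) i) i'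
  simpa [data] using h2

theorem jets_close (hN : 1 ≤ N) (h : X.data N B = X'.data N B) (k) (i i' : Fin p)
    (hf : X.Flag N i i' (gp D N B k) (4 * crad D B)) :
    (∀ m < 2 * D + 4, ‖iteratedFDeriv ℝ m (X.f i i') (gp D N B k) -
        iteratedFDeriv ℝ m (X'.f i i') (gp D N B k)‖ ≤ (1 / 2) ^ B) ∧
      (∀ l, |X.g l (X.psi i (gp D N B k)) - X'.g l (X'.psi i (gp D N B k))| ≤ (1 / 2) ^ B) ∧
      |X.dens i (gp D N B k) - X'.dens i (gp D N B k)| ≤ (1 / 2) ^ B := by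
  have hN' : (1 : ℝ) ≤ N := by exact_mod_cast hN
  have hr : 0 ≤ 4 * crad D B := by have := crad_pos D B; positivity
  have hf' := (flag_iff h k i i').1 hf
  have h1 := congrArg Prod.snd (congrFun h k)
  have h2 := Rd_spec D p q N B (X.norm_jet_le hN' _ hr) (X'.norm_jet_le hN' _ hr) h1
  have hpos : (0 : ℝ) ≤ (1 / 2) ^ B := by positivity
  have h3 := (pi_norm_le_iff_of_nonneg hpos).1 ((pi_norm_le_iff_of_nonneg hpos).1 h2 i) i'
  have h4 : X.jet N (gp D N B k) (4 * crad D B) i i' =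
      (fun m : Fin (2 * D + 4) => iteratedFDeriv ℝ (m : ℕ) (X.f i i') (gp D N B k),
        fun l => X.g l (X.psi i (gp D N B k)), X.dens i (gp D N B k)) := by
    unfold jet; rw [if_pos hf]
  have h5 : X'.jet N (gp D N B k) (4 * crad D B) i i' =
      (fun m : Fin (2 * D + 4) => iteratedFDeriv ℝ (m : ℕ) (X'.f i i') (gp D N B k),
        fun l => X'.g l (X'.psi i (gp D N B k)), X'.dens i (gp D N B k)) := by
    unfold jet; rw [if_pos hf']
  simp only [Pi.sub_apply] at h3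
  rw [h4, h5] at h3
  obtain ⟨h6, h7⟩ := norm_prod_le_iff.1 h3
  obtain ⟨h7, h8⟩ := norm_prod_le_iff.1 h7
  refine ⟨fun m hm => ?_, fun l => ?_, ?_⟩
  · exact (pi_norm_le_iff_of_nonneg hpos).1 h6 ⟨m, hm⟩
  · have := (pi_norm_le_iff_of_nonneg hpos).1 h7 l
    rwa [Real.norm_eq_abs] at this
  · rwa [Real.norm_eq_abs] at h8

end same

end LocModel

/-- the closeness in `C²` of two models with the same data -/
noncomputable def eps0 (D N B : ℕ) : ℝ :=
  ((2 * D + 4 : ℕ) : ℝ) * (1 / 2) ^ B + (4 * crad D B) ^ (2 * D + 2) * (2 * N)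

theorem eps0_le (D N B : ℕ) :
    eps0 D N B ≤ ((2 * D + 4) + 2 * N * (8 * (D + 1)) ^ (2 * D + 2)) * (1 / 2) ^ B := by
  have h1 : B < gexp D B * (2 * D + 2) + (2 * D + 2) := by
    have := Nat.lt_div_mul_add (a := B) (b := 2 * D + 2) (by omega)
    unfold gexp
    rw [show 2 * (D + 1) = 2 * D + 2 by ring]
    exact this
  have h2 : (4 * crad D B) ^ (2 * D + 2) ≤ (8 * (D + 1)) ^ (2 * D + 2) * (1 / 2) ^ B := by
    have h3 : (4 * crad D B) ^ (2 * D + 2) =
        (4 * (D + 1)) ^ (2 * D + 2) * (1 / 2) ^ (gexp D B * (2 * D + 2)) := by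
      unfold crad
      rw [← mul_assoc, mul_pow, ← pow_mul]
    rw [h3]
    have h4 : ((1 : ℝ) / 2) ^ (gexp D B * (2 * D + 2)) ≤ 2 ^ (2 * D + 2) * (1 / 2) ^ B := by
      have h5 : ((1 : ℝ) / 2) ^ (gexp D B * (2 * D + 2)) =
          2 ^ (2 * D + 2) * (1 / 2) ^ (gexp D B * (2 * D + 2) + (2 * D + 2)) := by
        rw [pow_add ((1 : ℝ) / 2), mul_comm ((2 : ℝ) ^ (2 * D + 2)), mul_assoc, ← mul_pow]
        norm_num
      rw [h5]
      refine mul_le_mul_of_nonneg_left ?_ (by positivity)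
      exact pow_le_pow_of_le_one (by norm_num) (by norm_num) h1.le
    calc _ ≤ (4 * ((D : ℝ) + 1)) ^ (2 * D + 2) * (2 ^ (2 * D + 2) * (1 / 2) ^ B) :=
          mul_le_mul_of_nonneg_left h4 (by positivity)
      _ = _ := by
          rw [← mul_assoc, ← mul_pow]; ring_nf
  unfold eps0
  push_cast
  have hN : (0 : ℝ) ≤ 2 * N := by positivity
  nlinarith [mul_le_mul_of_nonneg_right h2 hN]

end Vale.Agent.P109.CH469
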