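import Vale.Agent.P109.CH469.Data
import Vale.Agent.P109.OV.Interface

/-!
# P109, block S5: the families of laws
-/

open MeasureTheory Set Metric
open scoped ENNReal NNReal ContDiff

namespace Vale.Agent.P109.CH469

universe u

namespace LocModel

variable {A : Type} {D p q : ℕ} {lab : (Fin q → Bool) → Fin p × A}
  {Ω : Type} [MeasurableSpace Ω] {ν : Measure Ω} {S : Ω → Ω}

open Classical in
theorem signs_meas (X : LocModel A D p q lab Ω ν S) :
    Measurable (fun z => (fun l => decide (0 < X.g l z) : Fin q → Bool)) := by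
  refine measurable_pi_lambda _ fun l => ?_
  have h : MeasurableSet {z | 0 < X.g l z} := measurableSet_lt measurable_const (X.g_meas l)
  refine measurable_to_bool ?_
  convert h using 1
  ext z; simp

/-- every function of the label is measurable -/
theorem fun_label_meas (X : LocModel A D p q lab Ω ν S) {β : Type*} [MeasurableSpace β]
    (F : Fin p × A → β) : Measurable (fun z => F (X.label z)) := by
  have h : Measurable (fun s : Fin q → Bool => F (lab s)) := measurable_of_finite _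
  exact h.comp X.signs_meas

theorem idx_meas (X : LocModel A D p q lab Ω ν S) : Measurable X.idx :=
  X.fun_label_meas (fun x => x.1)

variable [MeasurableSpace A]

theorem letter_meas (X : LocModel A D p q lab Ω ν S) : Measurable X.letter :=
  X.fun_label_meas (fun x => x.2)

theorem name_meas (X : LocModel A D p q lab Ω ν S) (n : ℕ) :
    Measurable (OV.name S X.letter n) :=
  measurable_pi_lambda _ fun i => X.letter_meas.comp (X.S_meas.iterate i)

end LocModel

section

variable {A : Type}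

section

variable [MeasurableSpace A]

/-- `L` is the law of the `n`-names of a model with data `d` -/
def IsLaw {D p q N B : ℕ} (lab : (Fin q → Bool) → Fin p × A) (d : DataT D p q N B) (n : ℕ)
    (L : Measure (Fin n → A)) : Prop :=
  ∃ (Ω : Type) (_ : MeasurableSpace Ω) (ν : Measure Ω) (_ : IsProbabilityMeasure ν) (S : Ω → Ω)
    (X : LocModel A D p q lab Ω ν S), X.data N B = d ∧ L = ν.map (OV.name S X.letter n)

open Classical in
/-- the law of names of a representative model with data `d` -/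
noncomputable def repLaw {D p q N B : ℕ} (lab : (Fin q → Bool) → Fin p × A)
    (d : DataT D p q N B) (n : ℕ) : Measure (Fin n → A) :=
  if h : ∃ L, IsLaw lab d n L then Classical.choose h else 0

theorem repLaw_univ {D p q N B : ℕ} (lab : (Fin q → Bool) → Fin p × A) (d : DataT D p q N B)
    (n : ℕ) : repLaw lab d n univ ≤ 1 := by
  unfold repLaw
  split_ifs with h
  · obtain ⟨Ω, _, ν, _, S, X, -, hL⟩ := Classical.choose_spec h
    rw [hL, Measure.map_apply (X.name_meas n) MeasurableSet.univ]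
    simp
  · simp

end

/-- the parameter space of the family -/
abbrev Par (A : Type) (N B : ℕ) : Type :=
  Σ (D : Fin (N + 1)) (p : Fin (N + 1)) (q : Fin (N + 1)),
    ((Fin (q : ℕ) → Bool) → Fin (p : ℕ) × A) × DataT D p q N B

section

variable [MeasurableSpace A]

/-- the family of laws -/
noncomputable def Fam : OV.Family A := fun N B n =>
  Set.range (fun x : Par A N B => repLaw x.2.2.2.1 x.2.2.2.2 n)

theorem exists_rep {D p q N B : ℕ} (hD : D ≤ N) (hp : p ≤ N) (hq : q ≤ N)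
    {lab : (Fin q → Bool) → Fin p × A} {Ω : Type} [MeasurableSpace Ω] {ν : Measure Ω}
    [IsProbabilityMeasure ν] {S : Ω → Ω} (X : LocModel A D p q lab Ω ν S) (n : ℕ) :
    ∃ L ∈ (Fam : OV.Family A) N B n, ∃ (Ω' : Type) (_ : MeasurableSpace Ω') (ν' : Measure Ω')
      (_ : IsProbabilityMeasure ν') (S' : Ω' → Ω') (X' : LocModel A D p q lab Ω' ν' S'),
      X'.data N B = X.data N B ∧ L = ν'.map (OV.name S' X'.letter n) := by
  have h : ∃ L, IsLaw lab (X.data N B) n L := ⟨_, Ω, _, ν, ‹_›, S, X, rfl, rfl⟩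
  refine ⟨repLaw lab (X.data N B) n, ⟨⟨⟨D, by omega⟩, ⟨p, by omega⟩, ⟨q, by omega⟩, lab,
    X.data N B⟩, rfl⟩, ?_⟩
  have h2 := Classical.choose_spec h
  have h3 : repLaw lab (X.data N B) n = Classical.choose h := by
    unfold repLaw; rw [dif_pos h]
  rw [h3]
  obtain ⟨Ω', m', ν', hν', S', X', h4, h5⟩ := h2
  exact ⟨Ω', m', ν', hν', S', X', h4, h5⟩

end

/-! ### cardinality -/

theorem card_Par_le [Fintype A] (N : ℕ) :
    ∃ c : ℕ, ∀ B, Fintype.card (Par A N B) ≤ 2 ^ (c * (B + 1) * 2 ^ (B / 2)) := by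
  classical
  -- bound of the constants
  let c0 : ℕ := ∑ D : Fin (N + 1), ∑ p : Fin (N + 1), ∑ q : Fin (N + 1), cst D p q N
  have hc0 : ∀ D p q : Fin (N + 1), cst D p q N ≤ c0 := by
    intro D p q
    calc cst D p q N ≤ ∑ q : Fin (N + 1), cst D p q N :=
          Finset.single_le_sum (f := fun q : Fin (N + 1) => cst D p q N)
            (fun _ _ => Nat.zero_le _) (Finset.mem_univ q)
      _ ≤ ∑ p : Fin (N + 1), ∑ q : Fin (N + 1), cst D p q N :=
          Finset.single_le_sum (f := fun p : Fin (N + 1) => ∑ q : Fin (N + 1), cst D p q N)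
            (fun _ _ => Nat.zero_le _) (Finset.mem_univ p)
      _ ≤ c0 :=
          Finset.single_le_sum
            (f := fun D : Fin (N + 1) => ∑ p : Fin (N + 1), ∑ q : Fin (N + 1), cst D p q N)
            (fun _ _ => Nat.zero_le _) (Finset.mem_univ D)
  let a := Fintype.card A
  let C1 := (N * N + c0) * (2 * N + 1) ^ N
  let C2 := (N * a + 1) * 2 ^ N
  refine ⟨C1 + C2 + 3 * (N + 1), fun B => ?_⟩
  have hlt : ∀ m : ℕ, m ≤ 2 ^ m := fun m => Nat.lt_two_pow_self.le
  have hone : 1 ≤ 2 ^ (B / 2) := Nat.one_le_two_pow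
  have hdata : ∀ D p q : Fin (N + 1), Fintype.card (DataT D p q N B) ≤
      2 ^ (C1 * (B + 1) * 2 ^ (B / 2)) := by
    intro D p q
    have hDN : (D : ℕ) ≤ N := Nat.lt_succ_iff.1 D.2
    have hpN : (p : ℕ) ≤ N := Nat.lt_succ_iff.1 p.2
    have h1 : Fintype.card (DataT D p q N B) =
        ((2 ^ (p : ℕ)) ^ (p : ℕ) * 2 ^ (cst D p q N * (B + 1))) ^
          ((2 * (N * 2 ^ gexp D B) + 1) ^ (D : ℕ)) := by
      simp only [DataT, Fintype.card_fun, Fintype.card_prod, Fintype.card_fin, Fintype.card_bool]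
    rw [h1]
    have h2 : (2 ^ (p : ℕ)) ^ (p : ℕ) * 2 ^ (cst D p q N * (B + 1)) ≤
        2 ^ ((N * N + c0) * (B + 1)) := by
      rw [← pow_mul, ← pow_add]
      refine Nat.pow_le_pow_right (by norm_num) ?_
      have h3 : (p : ℕ) * p ≤ N * N := Nat.mul_le_mul hpN hpN
      have h4 := hc0 D p q
      nlinarith [Nat.mul_le_mul_right (B + 1) h4]
    have h3 : (2 * (N * 2 ^ gexp D B) + 1) ^ (D : ℕ) ≤ (2 * N + 1) ^ N * 2 ^ (B / 2) := by
      have h4 : 2 * (N * 2 ^ gexp D B) + 1 ≤ (2 * N + 1) * 2 ^ gexp D B := by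
        have : 1 ≤ 2 ^ gexp D B := Nat.one_le_two_pow
        nlinarith
      have h5 : gexp D B * D ≤ B / 2 := by
        unfold gexp
        rw [Nat.le_div_iff_mul_le (by norm_num)]
        have := Nat.div_mul_le_self B (2 * (D + 1))
        nlinarith
      calc (2 * (N * 2 ^ gexp D B) + 1) ^ (D : ℕ)
          ≤ ((2 * N + 1) * 2 ^ gexp D B) ^ (D : ℕ) := Nat.pow_le_pow_left h4 _
        _ = (2 * N + 1) ^ (D : ℕ) * 2 ^ (gexp D B * D) := by rw [mul_pow, ← pow_mul]
        _ ≤ (2 * N + 1) ^ N * 2 ^ (B / 2) :=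
            Nat.mul_le_mul (Nat.pow_le_pow_right (by omega) hDN)
              (Nat.pow_le_pow_right (by norm_num) h5)
    calc _ ≤ (2 ^ ((N * N + c0) * (B + 1))) ^ ((2 * (N * 2 ^ gexp D B) + 1) ^ (D : ℕ)) :=
          Nat.pow_le_pow_left h2 _
      _ ≤ (2 ^ ((N * N + c0) * (B + 1))) ^ ((2 * N + 1) ^ N * 2 ^ (B / 2)) :=
          Nat.pow_le_pow_right (by positivity) h3
      _ = 2 ^ (C1 * (B + 1) * 2 ^ (B / 2)) := by
          rw [← pow_mul]; congr 1; simp only [C1]; ring
  have hlab : ∀ p q : Fin (N + 1),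
      Fintype.card ((Fin (q : ℕ) → Bool) → Fin (p : ℕ) × A) ≤ 2 ^ (C2 * (B + 1) * 2 ^ (B / 2)) := by
    intro p q
    have hpN : (p : ℕ) ≤ N := Nat.lt_succ_iff.1 p.2
    have hqN : (q : ℕ) ≤ N := Nat.lt_succ_iff.1 q.2
    simp only [Fintype.card_fun, Fintype.card_prod, Fintype.card_fin, Fintype.card_bool]
    have h1 : (p : ℕ) * Fintype.card A ≤ 2 ^ (N * a + 1) :=
      (Nat.mul_le_mul_right _ hpN).trans ((Nat.le_succ _).trans (hlt _))
    calc ((p : ℕ) * Fintype.card A) ^ 2 ^ (q : ℕ) ≤ (2 ^ (N * a + 1)) ^ 2 ^ (q : ℕ) :=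
          Nat.pow_le_pow_left h1 _
      _ ≤ (2 ^ (N * a + 1)) ^ 2 ^ N :=
          Nat.pow_le_pow_right (by positivity) (Nat.pow_le_pow_right (by norm_num) hqN)
      _ = 2 ^ C2 := by rw [← pow_mul]
      _ ≤ 2 ^ (C2 * (B + 1) * 2 ^ (B / 2)) := by
          refine Nat.pow_le_pow_right (by norm_num) ?_
          rw [mul_assoc]
          exact Nat.le_mul_of_pos_right _ (by positivity)
  have hprod : ∀ D p q : Fin (N + 1),
      Fintype.card (((Fin (q : ℕ) → Bool) → Fin (p : ℕ) × A) × DataT D p q N B) ≤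
        2 ^ ((C1 + C2) * (B + 1) * 2 ^ (B / 2)) := by
    intro D p q
    rw [Fintype.card_prod]
    calc _ ≤ 2 ^ (C2 * (B + 1) * 2 ^ (B / 2)) * 2 ^ (C1 * (B + 1) * 2 ^ (B / 2)) :=
          Nat.mul_le_mul (hlab p q) (hdata D p q)
      _ = _ := by rw [← pow_add]; congr 1; ring
  set T := 2 ^ ((C1 + C2) * (B + 1) * 2 ^ (B / 2)) with hT
  have hsum : Fintype.card (Par A N B) ≤ (N + 1) * ((N + 1) * ((N + 1) * T)) := by
    have e1 : ∀ D p : Fin (N + 1), Fintype.card (Σ q : Fin (N + 1),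
        ((Fin (q : ℕ) → Bool) → Fin (p : ℕ) × A) × DataT D p q N B) ≤ (N + 1) * T := by
      intro D p
      rw [Fintype.card_sigma]
      calc _ ≤ ∑ _q : Fin (N + 1), T := Finset.sum_le_sum fun q _ => hprod D p q
        _ = _ := by simp
    have e2 : ∀ D : Fin (N + 1), Fintype.card (Σ (p : Fin (N + 1)) (q : Fin (N + 1)),
        ((Fin (q : ℕ) → Bool) → Fin (p : ℕ) × A) × DataT D p q N B) ≤
          (N + 1) * ((N + 1) * T) := by
      intro D
      rw [Fintype.card_sigma]
      calc _ ≤ ∑ _p : Fin (N + 1), (N + 1) * T := Finset.sum_le_sum fun p _ => e1 D p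
        _ = _ := by simp
    rw [Fintype.card_sigma]
    calc _ ≤ ∑ _D : Fin (N + 1), (N + 1) * ((N + 1) * T) := Finset.sum_le_sum fun D _ => e2 D
      _ = _ := by simp
  refine hsum.trans ?_
  have h3 : (N + 1) * ((N + 1) * (N + 1)) ≤ 2 ^ (3 * (N + 1)) := by
    calc (N + 1) * ((N + 1) * (N + 1)) ≤ 2 ^ (N + 1) * (2 ^ (N + 1) * 2 ^ (N + 1)) :=
          Nat.mul_le_mul (hlt _) (Nat.mul_le_mul (hlt _) (hlt _))
      _ = _ := by rw [← pow_add, ← pow_add]; congr 1; ring
  calc (N + 1) * ((N + 1) * ((N + 1) * T)) = (N + 1) * ((N + 1) * (N + 1)) * T := by ring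
    _ ≤ 2 ^ (3 * (N + 1)) * T := Nat.mul_le_mul_right _ h3
    _ = 2 ^ (3 * (N + 1) + (C1 + C2) * (B + 1) * 2 ^ (B / 2)) := by rw [hT, ← pow_add]
    _ ≤ 2 ^ ((C1 + C2 + 3 * (N + 1)) * (B + 1) * 2 ^ (B / 2)) := by
        refine Nat.pow_le_pow_right (by norm_num) ?_
        have h4 : 3 * (N + 1) ≤ 3 * (N + 1) * ((B + 1) * 2 ^ (B / 2)) :=
          Nat.le_mul_of_pos_right _ (by positivity)
        calc _ ≤ 3 * (N + 1) * ((B + 1) * 2 ^ (B / 2)) + (C1 + C2) * (B + 1) * 2 ^ (B / 2) :=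
              Nat.add_le_add_right h4 _
          _ = _ := by ring

theorem smallFamily [MeasurableSpace A] [Fintype A] : OV.SmallFamily (Fam : OV.Family A) := by
  refine ⟨?_, fun N => ?_⟩
  · rintro N B n L ⟨x, rfl⟩
    exact repLaw_univ _ _ _
  · obtain ⟨c, hc⟩ := card_Par_le (A := A) N
    refine ⟨c + 1, fun B n => ⟨Set.finite_range _, ?_⟩⟩
    have h1 : ((Fam : OV.Family A) N B n).ncard ≤ Fintype.card (Par A N B) := by
      have h2 : Nat.card (Set.range (fun x : Par A N B => repLaw (A := A) x.2.2.2.1 x.2.2.2.2 n))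
          ≤ Nat.card (Par A N B) :=
        Nat.card_le_card_of_surjective _ Set.rangeFactorization_surjective
      rw [Nat.card_eq_fintype_card (α := Par A N B)] at h2
      exact h2
    refine h1.trans ((hc B).trans (Nat.pow_le_pow_right (by norm_num) ?_))
    refine Nat.mul_le_mul_right _ ?_
    calc c * (B + 1) ≤ 2 ^ c * (B + n + 2) :=
          Nat.mul_le_mul Nat.lt_two_pow_self.le (by omega)
      _ ≤ (B + n + 2) ^ c * (B + n + 2) :=
          Nat.mul_le_mul_right _ (Nat.pow_le_pow_left (by omega) c)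
      _ = (B + n + 2) ^ (c + 1) := (pow_succ _ _).symm

end

end Vale.Agent.P109.CH469
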