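import Vale.Agent.P109.CH469.Agree
import Vale.Agent.P109.CH469.Fam

/-!
# P109, block S5: comparison of the laws of names of two models with the same data
-/

open MeasureTheory Set Metric
open scoped ENNReal NNReal ContDiff

namespace Vale.Agent.P109.CH469

open Vale.Agent.P109.Coc

/-- The shadow lemma in the form used here (proved as `H633.shadow`). -/
def ShadowStmt (D : ℕ) : Prop :=
  ∀ (n : ℕ) (K C₂ e₀ m : ℝ), 1 ≤ K → 1 ≤ C₂ → 0 ≤ e₀ →
    20 * ((D : ℝ) + 1) * (n + 1) ^ 4 * K ^ 2 * C₂ * e₀ ≤ 1 → 2 * (n + 1) ^ 2 * K * e₀ < m →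
    ∀ (U : ℕ → Set (EE D)), (∀ t < n, IsOpen (U t)) → ∀ (f f' : ℕ → EE D → EE D),
    (∀ t < n, ContDiffOn ℝ 2 (f t) (U t)) → (∀ t < n, ContDiffOn ℝ 2 (f' t) (U t)) →
    (∀ t < n, ∀ x ∈ U t, ‖iteratedFDeriv ℝ 2 (f t) x‖ ≤ C₂) →
    (∀ t < n, ∀ x ∈ U t, ‖f' t x - f t x‖ ≤ e₀) →
    (∀ t < n, ∀ x ∈ U t, ‖fderiv ℝ (f' t) x - fderiv ℝ (f t) x‖ ≤ e₀) →
    ∀ (A B : Set (EE D)), MeasurableSet A →
    (∀ z ∈ A, ∀ t < n, closedBall (H633.orb f z t) m ⊆ U t) →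
    (∀ z ∈ A, S3.Good n (fun t => fderiv ℝ (f t) (H633.orb f z t)) K) →
    ∀ (w w' : EE D → ℝ≥0∞),
    (∀ z ∈ A, ∀ z', dist z' z ≤ 2 * (n + 1) ^ 2 * K * e₀ → w z ≤ (3 / 2) * w' z') →
    (∀ z ∈ A, ∀ z', (∀ t ≤ n, dist (H633.orb f' z' t) (H633.orb f z t) ≤
      2 * (n + 1) ^ 2 * K * e₀) → z' ∈ B) →
    ∫⁻ z in A, w z ≤ 2 * ∫⁻ z in B, w' z

variable {A : Type} {D p q : ℕ} {lab : (Fin q → Bool) → Fin p × A}
  {Ω : Type} [MeasurableSpace Ω] {ν : Measure Ω} {S : Ω → Ω}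
  {Ω' : Type} [MeasurableSpace Ω'] {ν' : Measure Ω'} {S' : Ω' → Ω'}

theorem LocModel.itin_meas (X : LocModel A D p q lab Ω ν S) (n : ℕ) (w : ℕ → Fin p × A) :
    MeasurableSet {z | ∀ t ≤ n, X.label (S^[t] z) = w t} := by
  have h1 : {z | ∀ t ≤ n, X.label (S^[t] z) = w t} =
      ⋂ t, ⋂ (_ : t ≤ n), {z | X.label (S^[t] z) = w t} := by
    ext z; simp
  rw [h1]
  refine MeasurableSet.iInter fun t => MeasurableSet.iInter fun _ => ?_
  have h2 : MeasurableSet {z | X.label z = w t} :=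
    measurableSet_setOfPred.2 (X.fun_label_meas (fun l => l = w t))
  exact (X.S_meas.iterate t) h2

theorem two_le_inf : (2 : WithTop ℕ∞) ≤ ((⊤ : ℕ∞) : WithTop ℕ∞) := by
  have h : ∀ m : ℕ, (m : WithTop ℕ∞) ≤ ((⊤ : ℕ∞) : WithTop ℕ∞) :=
    fun m => by exact_mod_cast le_top
  exact h 2

theorem eps0_nonneg (D N B : ℕ) : 0 ≤ eps0 D N B := by
  have := crad_pos D B
  unfold eps0
  positivity

section same

variable {X : LocModel A D p q lab Ω ν S} {X' : LocModel A D p q lab Ω' ν' S'} {N B : ℕ}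

/-- comparison for one itinerary -/
theorem itin_le (hsh : ShadowStmt D) (hN : 1 ≤ N) (h : X.data N B = X'.data N B) {n : ℕ} {K : ℝ}
    (hK : 1 ≤ K) (hsm : 12 * (N : ℝ) ^ 2 * crad D B ≤ 1)
    (h20 : 20 * ((D : ℝ) + 1) * (n + 1) ^ 4 * K ^ 2 * N * eps0 D N B ≤ 1)
    (hR : 2 * ((n : ℝ) + 1) ^ 2 * K * eps0 D N B ≤ crad D B) (w : ℕ → Fin p × A) {G : Set Ω}
    (hG : MeasurableSet G) (hGm : ∀ z ∈ G, ∀ t ≤ n, X.Marg N (6 * N * crad D B) (S^[t] z))
    (hGg : ∀ z ∈ G, S3.Good n (fun t => fderiv ℝ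
      (X.f (X.idx (S^[t] z)) (X.idx (S^[t + 1] z))) (crd X (S^[t] z))) K) :
    ν (G ∩ {z | ∀ t ≤ n, X.label (S^[t] z) = w t}) ≤
      2 * ν' {z | ∀ t ≤ n, X'.label (S'^[t] z) = w t} := by
  have hN' : (1 : ℝ) ≤ N := by exact_mod_cast hN
  have hc := crad_pos D B
  have h4c : 4 * crad D B ≤ 1 := by nlinarith [mul_self_nonneg ((N : ℝ) - 1)]
  have he0 : (0 : ℝ) ≤ 6 * N * crad D B := by positivity
  set P : Set Ω := {z | ∀ t ≤ n, X.label (S^[t] z) = w t} with hP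
  set P' : Set Ω' := {z | ∀ t ≤ n, X'.label (S'^[t] z) = w t} with hP'
  set i₀ : Fin p := (w 0).1 with hi₀
  let Aw : Set (EE D) := X.dom i₀ ∩ X.psi i₀ ⁻¹' (G ∩ P)
  let Bw : Set (EE D) := X'.dom i₀ ∩ X'.psi i₀ ⁻¹' P'
  have hPm := X.itin_meas n w
  have hPm' := X'.itin_meas n w
  have hAm : MeasurableSet Aw :=
    (X.dom_open i₀).measurableSet.inter (X.psi_meas i₀ (hG.inter hPm))
  have hBm : MeasurableSet Bw := (X'.dom_open i₀).measurableSet.inter (X'.psi_meas i₀ hPm')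
  -- facts on points of `Aw`
  have hAz : ∀ x ∈ Aw, crd X (X.psi i₀ x) = x ∧ X.idx (X.psi i₀ x) = i₀ := by
    intro x hx
    have h1 : X.idx (X.psi i₀ x) = i₀ := LocModel.idx_eq (hx.2.2 0 (Nat.zero_le _))
    refine ⟨?_, h1⟩
    unfold crd
    rw [h1]
    exact X.phi_psi _ _ hx.1
  have horb : ∀ x ∈ Aw, ∀ t ≤ n,
      H633.orb (X.fs w) x t = crd X (S^[t] (X.psi i₀ x)) := by
    intro x hx t ht
    have h1 := LocModel.orb_crd (X := X) hN' he0 (hGm _ hx.2.1) hx.2.2 t ht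
    rwa [(hAz x hx).1] at h1
  -- domains
  let U : ℕ → Set (EE D) := fun t => ⋃ k, ⋃ (_ : X.Flag N (w t).1 (w (t + 1)).1 (gp D N B k)
    (4 * crad D B)), ball (gp D N B k) (4 * crad D B)
  have hUmem : ∀ t x, x ∈ U t ↔ ∃ k, X.Flag N (w t).1 (w (t + 1)).1 (gp D N B k)
      (4 * crad D B) ∧ x ∈ ball (gp D N B k) (4 * crad D B) := by
    intro t x; simp [U]
  have hUopen : ∀ t, IsOpen (U t) := fun t =>
    isOpen_iUnion fun k => isOpen_iUnion fun _ => isOpen_ball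
  have hball : ∀ x ∈ Aw, ∀ t < n,
      closedBall (H633.orb (X.fs w) x t) (2 * crad D B) ⊆ U t := by
    intro x hx t ht y hy
    have hm := hGm _ hx.2.1 t ht.le
    obtain ⟨k, hk1, hk2⟩ := LocModel.exists_flag hN hm
    rw [LocModel.idx_eq (hx.2.2 t ht.le), ← Function.iterate_succ_apply' (f := S),
      LocModel.idx_eq (hx.2.2 (t + 1) ht)] at hk2
    refine (hUmem t y).2 ⟨k, hk2, ?_⟩
    rw [horb x hx t ht.le, mem_closedBall] at hy
    rw [mem_ball]
    have := dist_triangle y (crd X (S^[t] (X.psi i₀ x))) (gp D N B k)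
    linarith
  have hsmooth : ∀ t, ContDiffOn ℝ 2 (X.fs w t) (U t) := by
    intro t x hx
    obtain ⟨k, hk1, hk2⟩ := (hUmem t x).1 hx
    have h1 : ContDiffAt ℝ ∞ (X.f (w t).1 (w (t + 1)).1) x :=
      (X.f_smooth _ _ x (hk1.1 (ball_subset_closedBall hk2))).contDiffAt
        ((X.Dom_open _ _).mem_nhds (hk1.1 (ball_subset_closedBall hk2)))
    exact (h1.of_le two_le_inf).contDiffWithinAt
  have hsmooth' : ∀ t, ContDiffOn ℝ 2 (X'.fs w t) (U t) := by
    intro t x hx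
    obtain ⟨k, hk1, hk2⟩ := (hUmem t x).1 hx
    have hk1' := (LocModel.flag_iff h k _ _).1 hk1
    have h1 : ContDiffAt ℝ ∞ (X'.f (w t).1 (w (t + 1)).1) x :=
      (X'.f_smooth _ _ x (hk1'.1 (ball_subset_closedBall hk2))).contDiffAt
        ((X'.Dom_open _ _).mem_nhds (hk1'.1 (ball_subset_closedBall hk2)))
    exact (h1.of_le two_le_inf).contDiffWithinAt
  have hmain := hsh n K N (eps0 D N B) (2 * crad D B) hK hN' (eps0_nonneg D N B) h20
    (by linarith) U (fun t _ => hUopen t) (X.fs w) (X'.fs w) (fun t _ => hsmooth t)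
    (fun t _ => hsmooth' t)
    (fun t _ x hx => by
      obtain ⟨k, hk1, hk2⟩ := (hUmem t x).1 hx
      exact (hk1.2 x (ball_subset_closedBall hk2)).2.1 2 (by omega))
    (fun t _ x hx => by
      obtain ⟨k, hk1, hk2⟩ := (hUmem t x).1 hx
      exact (maps_close hN h4c h hk1 hk2).1)
    (fun t _ x hx => by
      obtain ⟨k, hk1, hk2⟩ := (hUmem t x).1 hx
      exact (maps_close hN h4c h hk1 hk2).2)
    Aw Bw hAm hball
    (fun x hx => (hGg _ hx.2.1).congr fun t ht => by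
      show fderiv ℝ (X.f (w t).1 (w (t + 1)).1) (H633.orb (X.fs w) x t) = _
      rw [horb x hx t ht.le, ← LocModel.idx_eq (hx.2.2 t ht.le),
        ← LocModel.idx_eq (hx.2.2 (t + 1) ht)])
    (fun x => ENNReal.ofReal (X.dens i₀ x)) (fun x => ENNReal.ofReal (X'.dens i₀ x))
    (fun x hx y hy => by
      have h1 := dens_agree (X := X) (X' := X') hN hsm h (hGm _ hx.2.1 0 (Nat.zero_le _))
        (y := y) (by
          rw [Function.iterate_zero, id, (hAz x hx).1]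
          exact hy.trans hR)
      rw [Function.iterate_zero, id, (hAz x hx).1, (hAz x hx).2] at h1
      exact h1)
    (fun x hx y hy => by
      have h1 := orbit_agree (X := X) (X' := X') hN h (hGm _ hx.2.1) hx.2.2 (y := y)
        (fun t ht => by
          rw [(hAz x hx).1]
          exact (hy t ht).trans hR)
      exact ⟨h1.1, h1.2⟩)
  have hA1 : G ∩ P ⊆ X.psi i₀ '' Aw := by
    intro z hz
    have hm := hGm z hz.1 0 (Nat.zero_le _)
    rw [Function.iterate_zero, id] at hm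
    have hi : X.idx z = i₀ := LocModel.idx_eq (hz.2 0 (Nat.zero_le _))
    obtain ⟨x, hx1, hx2⟩ := hm.1
    rw [hi] at hx1 hx2
    exact ⟨x, ⟨hx1, by rw [mem_preimage, hx2]; exact hz⟩, hx2⟩
  have hB1 : X'.psi i₀ '' Bw ⊆ P' := by
    rintro _ ⟨x, hx, rfl⟩
    exact hx.2
  calc ν (G ∩ P) ≤ ν (X.psi i₀ '' Aw) := measure_mono hA1
    _ = ∫⁻ x in Aw, ENNReal.ofReal (X.dens i₀ x) :=
        X.image_vol i₀ Aw inter_subset_left hAm
    _ ≤ 2 * ∫⁻ x in Bw, ENNReal.ofReal (X'.dens i₀ x) := hmain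
    _ = 2 * ν' (X'.psi i₀ '' Bw) := by rw [X'.image_vol i₀ Bw inter_subset_left hBm]
    _ ≤ 2 * ν' P' := by gcongr

/-- comparison of the laws of names -/
theorem law_le [Fintype A] [MeasurableSpace A] (hsh : ShadowStmt D) (hN : 1 ≤ N)
    (h : X.data N B = X'.data N B) {n : ℕ} {K : ℝ}
    (hK : 1 ≤ K) (hsm : 12 * (N : ℝ) ^ 2 * crad D B ≤ 1)
    (h20 : 20 * ((D : ℝ) + 1) * (n + 1) ^ 4 * K ^ 2 * N * eps0 D N B ≤ 1)
    (hR : 2 * ((n : ℝ) + 1) ^ 2 * K * eps0 D N B ≤ crad D B) {G : Set Ω}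
    (hG : MeasurableSet G) (hGm : ∀ z ∈ G, ∀ t ≤ n, X.Marg N (6 * N * crad D B) (S^[t] z))
    (hGg : ∀ z ∈ G, S3.Good n (fun t => fderiv ℝ
      (X.f (X.idx (S^[t] z)) (X.idx (S^[t + 1] z))) (crd X (S^[t] z))) K)
    (s : Set (Fin n → A)) :
    ν (G ∩ {z | OV.name S X.letter n z ∈ s}) ≤ 2 * (ν'.map (OV.name S' X'.letter n)) s := by
  classical
  let I : Type := Fin (n + 1) → Fin p × A
  let ex : I → ℕ → Fin p × A := fun v t => v ⟨min t n, by omega⟩
  have hex : ∀ (v : I) (t : Fin (n + 1)), ex v t = v t := by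
    intro v t
    simp only [ex]
    congr 1
    ext
    simp only
    omega
  let P : I → Set Ω := fun v => {z | ∀ t ≤ n, X.label (S^[t] z) = ex v t}
  let P' : I → Set Ω' := fun v => {z | ∀ t ≤ n, X'.label (S'^[t] z) = ex v t}
  let T : Finset I := Finset.univ.filter (fun v => (fun i : Fin n => (ex v i).2) ∈ s)
  have hcov : G ∩ {z | OV.name S X.letter n z ∈ s} ⊆ ⋃ v ∈ T, G ∩ P v := by
    intro z hz
    let v : I := fun t => X.label (S^[t] z)
    have hv : ∀ t ≤ n, X.label (S^[t] z) = ex v t := by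
      intro t ht
      have := hex v ⟨t, by omega⟩
      simp only at this
      rw [this]
    have hvT : v ∈ T := by
      rw [Finset.mem_filter]
      refine ⟨Finset.mem_univ _, ?_⟩
      have h1 : (fun i : Fin n => (ex v i).2) = OV.name S X.letter n z := by
        funext i
        rw [← hv i i.2.le]
        rfl
      rw [h1]
      exact hz.2
    exact mem_biUnion hvT ⟨hz.1, hv⟩
  have hdisj : Set.PairwiseDisjoint (T : Set I) P' := by
    intro v _ v' _ hvv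
    rw [Function.onFun, Set.disjoint_left]
    intro z hz hz'
    apply hvv
    funext t
    rw [← hex v t, ← hex v' t, ← hz t (by omega), ← hz' t (by omega)]
  have hsub : ⋃ v ∈ T, P' v ⊆ OV.name S' X'.letter n ⁻¹' s := by
    intro z hz
    obtain ⟨v, hvT, hv⟩ := mem_iUnion₂.1 hz
    have h1 : OV.name S' X'.letter n z = (fun i : Fin n => (ex v i).2) := by
      funext i
      rw [← hv i i.2.le]
      rfl
    rw [mem_preimage, h1]
    exact (Finset.mem_filter.1 hvT).2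
  calc ν (G ∩ {z | OV.name S X.letter n z ∈ s}) ≤ ν (⋃ v ∈ T, G ∩ P v) := measure_mono hcov
    _ ≤ ∑ v ∈ T, ν (G ∩ P v) := measure_biUnion_finset_le _ _
    _ ≤ ∑ v ∈ T, 2 * ν' (P' v) := Finset.sum_le_sum fun v _ =>
        itin_le hsh hN h hK hsm h20 hR (ex v) hG hGm hGg
    _ = 2 * ν' (⋃ v ∈ T, P' v) := by
        rw [← Finset.mul_sum, measure_biUnion_finset hdisj fun v _ => X'.itin_meas n (ex v)]
    _ ≤ 2 * ν' (OV.name S' X'.letter n ⁻¹' s) := by gcongr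
    _ ≤ 2 * (ν'.map (OV.name S' X'.letter n)) s := by
        gcongr
        exact Measure.le_map_apply (X'.name_meas n).aemeasurable s

end same

end Vale.Agent.P109.CH469
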