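import Vale.Agent.P109.CH469.Data

/-!
# P109, block S5: numerics
-/

open Set

namespace Vale.Agent.P109.CH469

theorem key_bound {c M : ℝ} (hc : 0 < c) (hM : 0 ≤ M) {k : ℕ} (hk : 1 ≤ k) {C x : ℝ}
    (hC : 1 + M * (k.factorial / c ^ k) ≤ C) (hx : 0 ≤ x) :
    M * ((x / C) ^ k * Real.exp (-(c * x))) ≤ 1 := by
  have hf : (0 : ℝ) < k.factorial := by exact_mod_cast Nat.factorial_pos k
  have hC1 : 1 ≤ C := by
    have : 0 ≤ M * (k.factorial / c ^ k) := by positivity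
    linarith
  have hC0 : 0 < C := by linarith
  have h1 : (c * x) ^ k / k.factorial ≤ Real.exp (c * x) :=
    Real.pow_div_factorial_le_exp (c * x) (by positivity) k
  have h2 : x ^ k * Real.exp (-(c * x)) ≤ k.factorial / c ^ k := by
    rw [Real.exp_neg, ← div_eq_mul_inv, div_le_div_iff₀ (Real.exp_pos _) (by positivity)]
    rw [div_le_iff₀ hf, mul_pow] at h1
    nlinarith
  have h3 : C ≤ C ^ k := le_self_pow₀ hC1 (by omega)
  have h4 : M * ((x / C) ^ k * Real.exp (-(c * x))) =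
      M * (x ^ k * Real.exp (-(c * x))) / C ^ k := by
    rw [div_pow]; field_simp
  rw [h4, div_le_one (by positivity)]
  calc M * (x ^ k * Real.exp (-(c * x))) ≤ M * (k.factorial / c ^ k) :=
        mul_le_mul_of_nonneg_left h2 hM
    _ ≤ C := by linarith
    _ ≤ C ^ k := h3

theorem half_pow_le {B : ℕ} {x : ℝ} (hx0 : 0 ≤ x) (hx : x ≤ B) :
    ((1 : ℝ) / 2) ^ B ≤ Real.exp (-((69 / 100) * x)) := by
  have h1 : ((1 : ℝ) / 2) ^ B = Real.exp (-(B * Real.log 2)) := by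
    rw [Real.exp_neg, Real.exp_nat_mul, Real.exp_log (by norm_num), one_div, inv_pow]
  rw [h1, Real.exp_le_exp]
  have h2 := Real.log_two_gt_d9
  nlinarith

theorem crad_le {D B : ℕ} {x : ℝ} (hx0 : 0 ≤ x) (hx : x ≤ B) :
    crad D B ≤ 2 * (D + 1) * Real.exp (-((69 / 100 / (2 * (D + 1))) * x)) := by
  have hD : (0 : ℝ) < 2 * (D + 1) := by positivity
  have h1 : x / (2 * (D + 1)) ≤ ((gexp D B + 1 : ℕ) : ℝ) := by
    rw [div_le_iff₀ hD]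
    have h2 : B < (gexp D B + 1) * (2 * (D + 1)) := by
      have := Nat.lt_div_mul_add (a := B) (b := 2 * (D + 1)) (by omega)
      unfold gexp
      rw [add_mul, one_mul]
      exact this
    have h3 : (B : ℝ) ≤ ((gexp D B + 1 : ℕ) : ℝ) * (2 * (D + 1)) := by
      have : (B : ℝ) ≤ (((gexp D B + 1) * (2 * (D + 1)) : ℕ) : ℝ) := by exact_mod_cast h2.le
      push_cast at this ⊢
      linarith
    linarith
  have h4 := half_pow_le (B := gexp D B + 1) (x := x / (2 * (D + 1))) (by positivity) h1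
  have h5 : crad D B = 2 * (D + 1) * ((1 : ℝ) / 2) ^ (gexp D B + 1) := by
    unfold crad; rw [pow_succ]; ring
  rw [h5]
  refine mul_le_mul_of_nonneg_left (h4.trans (le_of_eq ?_)) (by positivity)
  congr 1
  field_simp

theorem num1 {D N B : ℕ} {c C x y : ℝ} (hc0 : 0 < c)
    (hcr : crad D B ≤ 2 * (D + 1) * Real.exp (-(c * x))) (hx0 : 0 ≤ x) (hy : y = x / C)
    (hy1 : 1 ≤ y) (hC : 1 + (24 * (N : ℝ) ^ 2 * (D + 1)) * (Nat.factorial 1 / c ^ 1) ≤ C) :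
    12 * (N : ℝ) ^ 2 * crad D B ≤ 1 := by
  have h1 := key_bound (c := c) (M := 24 * (N : ℝ) ^ 2 * (D + 1)) (k := 1) hc0 (by positivity)
    le_rfl hC hx0
  rw [← hy, pow_one] at h1
  have h2 : Real.exp (-(c * x)) ≤ y * Real.exp (-(c * x)) :=
    le_mul_of_one_le_left (Real.exp_pos _).le hy1
  calc 12 * (N : ℝ) ^ 2 * crad D B
      ≤ 12 * (N : ℝ) ^ 2 * (2 * (D + 1) * Real.exp (-(c * x))) :=
        mul_le_mul_of_nonneg_left hcr (by positivity)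
    _ = (24 * (N : ℝ) ^ 2 * (D + 1)) * Real.exp (-(c * x)) := by ring
    _ ≤ (24 * (N : ℝ) ^ 2 * (D + 1)) * (y * Real.exp (-(c * x))) :=
        mul_le_mul_of_nonneg_left h2 (by positivity)
    _ ≤ 1 := h1

theorem num2 {D N B : ℕ} {C Ce x y P : ℝ} (hCe0 : 0 < Ce) (hP1 : 1 ≤ P) (hPy' : P ≤ y ^ 2)
    (he0 : eps0 D N B ≤ Ce * (1 / 2) ^ B) (he : 0 ≤ eps0 D N B)
    (hx0 : 0 ≤ x) (hB : x ≤ B) (hy : y = x / C) (hy1 : 1 ≤ y)
    (hC : 1 + (5120 * ((D : ℝ) + 1) * N * Ce) * (Nat.factorial 8 / (1 / 2) ^ 8) ≤ C) :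
    20 * ((D : ℝ) + 1) * (2 * P + 1) ^ 4 * Real.exp (x / 100) ^ 2 * N * eps0 D N B ≤ 1 := by
  have h1 := key_bound (c := 1 / 2) (M := 5120 * ((D : ℝ) + 1) * N * Ce) (k := 8) (by norm_num)
    (by positivity) (by norm_num) hC hx0
  rw [← hy] at h1
  have h2 : (2 * P + 1) ^ 4 ≤ 256 * y ^ 8 := by
    have h3 : 2 * P + 1 ≤ 4 * y ^ 2 := by nlinarith
    calc (2 * P + 1) ^ 4 ≤ (4 * y ^ 2) ^ 4 := pow_le_pow_left₀ (by positivity) h3 4
      _ = 256 * y ^ 8 := by ring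
  have h3 : eps0 D N B ≤ Ce * Real.exp (-((69 / 100) * x)) :=
    he0.trans (mul_le_mul_of_nonneg_left (half_pow_le hx0 hB) hCe0.le)
  have h4 : Real.exp (x / 100) ^ 2 * Real.exp (-((69 / 100) * x)) ≤
      Real.exp (-(1 / 2 * x)) := by
    rw [← Real.exp_nat_mul, ← Real.exp_add, Real.exp_le_exp]
    push_cast
    nlinarith
  calc 20 * ((D : ℝ) + 1) * (2 * P + 1) ^ 4 * Real.exp (x / 100) ^ 2 * N * eps0 D N B
      ≤ 20 * ((D : ℝ) + 1) * (256 * y ^ 8) * Real.exp (x / 100) ^ 2 * N *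
        (Ce * Real.exp (-((69 / 100) * x))) := by gcongr
    _ = (5120 * ((D : ℝ) + 1) * N * Ce) *
        (y ^ 8 * (Real.exp (x / 100) ^ 2 * Real.exp (-((69 / 100) * x)))) := by ring
    _ ≤ (5120 * ((D : ℝ) + 1) * N * Ce) * (y ^ 8 * Real.exp (-(1 / 2 * x))) := by gcongr
    _ ≤ 1 := h1

theorem num3 {D N B : ℕ} {C Ce x y P : ℝ} (hCe0 : 0 < Ce) (hP1 : 1 ≤ P) (hPy' : P ≤ y ^ 2)
    (he0 : eps0 D N B ≤ Ce * (1 / 2) ^ B) (he : 0 ≤ eps0 D N B)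
    (hx0 : 0 ≤ x) (hB : x ≤ B) (hy : y = x / C) (hy1 : 1 ≤ y)
    (hC : 1 + (32 * Ce) * (Nat.factorial 4 / (1 / 4) ^ 4) ≤ C) :
    2 * (2 * P + 1) ^ 2 * Real.exp (x / 100) * eps0 D N B ≤ crad D B := by
  have hcpos := crad_pos D B
  have h1 := key_bound (c := 1 / 4) (M := 32 * Ce) (k := 4) (by norm_num) (by positivity)
    (by norm_num) hC hx0
  rw [← hy] at h1
  have h2 : (2 * P + 1) ^ 2 ≤ 16 * y ^ 4 := by
    have h3 : 2 * P + 1 ≤ 4 * y ^ 2 := by nlinarith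
    calc (2 * P + 1) ^ 2 ≤ (4 * y ^ 2) ^ 2 := pow_le_pow_left₀ (by positivity) h3 2
      _ = 16 * y ^ 4 := by ring
  have hg : 2 * gexp D B ≤ B := by
    unfold gexp
    have h3 := Nat.div_mul_le_self B (2 * (D + 1))
    nlinarith [Nat.zero_le (B / (2 * (D + 1)) * D)]
  have h5 : ((1 : ℝ) / 2) ^ B ≤ crad D B * Real.exp (-((69 / 200) * x)) := by
    have h6 : ((1 : ℝ) / 2) ^ B = (1 / 2) ^ gexp D B * (1 / 2) ^ (B - gexp D B) := by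
      rw [← pow_add]; congr 1; omega
    have h7 : ((1 : ℝ) / 2) ^ (B - gexp D B) ≤ Real.exp (-((69 / 200) * x)) := by
      have h8 : x / 2 ≤ ((B - gexp D B : ℕ) : ℝ) := by
        rw [Nat.cast_sub (by omega)]
        have : 2 * (gexp D B : ℝ) ≤ B := by exact_mod_cast hg
        linarith
      refine (half_pow_le (by positivity) h8).trans (le_of_eq ?_)
      congr 1; ring
    have h8 : ((1 : ℝ) / 2) ^ gexp D B ≤ crad D B := by
      unfold crad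
      have h9 : (0 : ℝ) < (1 / 2) ^ gexp D B := by positivity
      have h10 : (0 : ℝ) ≤ D := by positivity
      nlinarith
    rw [h6]
    exact mul_le_mul h8 h7 (by positivity) hcpos.le
  have h4 : Real.exp (x / 100) * Real.exp (-((69 / 200) * x)) ≤
      Real.exp (-(1 / 4 * x)) := by
    rw [← Real.exp_add, Real.exp_le_exp]
    nlinarith
  have h10 : eps0 D N B ≤ Ce * (crad D B * Real.exp (-((69 / 200) * x))) :=
    he0.trans (mul_le_mul_of_nonneg_left h5 hCe0.le)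
  calc 2 * (2 * P + 1) ^ 2 * Real.exp (x / 100) * eps0 D N B
      ≤ 2 * (16 * y ^ 4) * Real.exp (x / 100) *
        (Ce * (crad D B * Real.exp (-((69 / 200) * x)))) := by gcongr
    _ = crad D B * ((32 * Ce) *
        (y ^ 4 * (Real.exp (x / 100) * Real.exp (-((69 / 200) * x))))) := by ring
    _ ≤ crad D B * ((32 * Ce) * (y ^ 4 * Real.exp (-(1 / 4 * x)))) := by gcongr
    _ ≤ crad D B * 1 := mul_le_mul_of_nonneg_left h1 hcpos.le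
    _ = crad D B := mul_one _

theorem num4 {D N B : ℕ} {c C x y P ε : ℝ} (hc0 : 0 < c) (hP1 : 1 ≤ P)
    (hPy : P ≤ (ε * y) ^ 2) (hε : 0 < ε) (hε1 : ε ≤ 1)
    (hcr : crad D B ≤ 2 * (D + 1) * Real.exp (-(c * x))) (hx0 : 0 ≤ x) (hy : y = x / C)
    (hy1 : 1 ≤ y) (hC : 1 + (192 * (N : ℝ) ^ 2 * (D + 1)) * (Nat.factorial 4 / c ^ 4) ≤ C) :
    2 * P * (2 * P + 1) * (N * (6 * N * crad D B)) ≤ ε / 2 := by
  have h1 := key_bound (c := c) (M := 192 * (N : ℝ) ^ 2 * (D + 1)) (k := 4) hc0 (by positivity)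
    (by norm_num) hC hx0
  rw [← hy] at h1
  have hcpos := crad_pos D B
  have h2 : 2 * P * (2 * P + 1) ≤ ε * (8 * y ^ 4) := by
    have h3 : 2 * P * (2 * P + 1) ≤ 8 * P ^ 2 := by nlinarith
    have h4 : P ^ 2 ≤ (ε * y) ^ 4 := by
      calc P ^ 2 ≤ ((ε * y) ^ 2) ^ 2 := pow_le_pow_left₀ (by linarith) hPy 2
        _ = (ε * y) ^ 4 := by ring
    have h5 : (ε * y) ^ 4 ≤ ε * y ^ 4 := by
      rw [mul_pow]
      refine mul_le_mul_of_nonneg_right ?_ (by positivity)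
      calc ε ^ 4 ≤ ε ^ 1 := pow_le_pow_of_le_one hε.le hε1 (by norm_num)
        _ = ε := pow_one _
    linarith
  calc 2 * P * (2 * P + 1) * (N * (6 * N * crad D B))
      ≤ ε * (8 * y ^ 4) * (N * (6 * N * (2 * (D + 1) * Real.exp (-(c * x))))) := by gcongr
    _ = (ε / 2) * ((192 * (N : ℝ) ^ 2 * (D + 1)) * (y ^ 4 * Real.exp (-(c * x)))) := by ring
    _ ≤ (ε / 2) * 1 := mul_le_mul_of_nonneg_left h1 (by positivity)
    _ = ε / 2 := mul_one _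

theorem num_base {C ρ ε P x y : ℝ} (hC0 : 0 < C) (hρ : 0 < ρ) (hε : 0 < ε) (hP1 : 1 ≤ P)
    (hj : (C / (ε * ρ)) ^ 2 ≤ P) (hx : x = ρ * P) (hy : y = x / C) : P ≤ (ε * y) ^ 2 := by
  have hP0 : 0 < P := by linarith
  have hxy : x = C * y := by rw [hy]; field_simp
  rw [div_pow, div_le_iff₀ (by positivity)] at hj
  have h1 : C ^ 2 * P ≤ (ε * x) ^ 2 := by
    calc C ^ 2 * P ≤ (P * (ε * ρ) ^ 2) * P := mul_le_mul_of_nonneg_right hj hP0.le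
      _ = (ε * x) ^ 2 := by rw [hx]; ring
  have h2 : (ε * x) ^ 2 = C ^ 2 * (ε * y) ^ 2 := by rw [hxy]; ring
  rw [h2] at h1
  exact le_of_mul_le_mul_left h1 (by positivity)

theorem num (D N : ℕ) : ∃ C₀ : ℝ, 0 < C₀ ∧ ∀ C ≥ C₀, ∀ ρ ε : ℝ, 0 < ρ → ρ ≤ 1 →
    0 < ε → ε ≤ 1 →
    ∀ j : ℕ, (C / (ε * ρ)) ^ 2 ≤ 2 ^ j → ∀ B : ℕ, ρ * 2 ^ j ≤ B →
    12 * (N : ℝ) ^ 2 * crad D B ≤ 1 ∧
    20 * ((D : ℝ) + 1) * ((2 : ℝ) ^ (j + 1) + 1) ^ 4 * Real.exp (ρ * 2 ^ (j + 1) / 200) ^ 2 * N *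
      eps0 D N B ≤ 1 ∧
    2 * ((2 : ℝ) ^ (j + 1) + 1) ^ 2 * Real.exp (ρ * 2 ^ (j + 1) / 200) * eps0 D N B ≤
      crad D B ∧
    (2 : ℝ) ^ (j + 1) * ((2 : ℝ) ^ (j + 1) + 1) * (N * (6 * N * crad D B)) ≤ ε / 2 := by
  obtain ⟨c, hc⟩ : ∃ c : ℝ, c = 69 / 100 / (2 * ((D : ℝ) + 1)) := ⟨_, rfl⟩
  have hc0 : 0 < c := by rw [hc]; positivity
  obtain ⟨Ce, hCe⟩ : ∃ Ce : ℝ, Ce = (2 * D + 4) + 2 * N * (8 * ((D : ℝ) + 1)) ^ (2 * D + 2) :=
    ⟨_, rfl⟩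
  have hCe0 : 0 < Ce := by rw [hCe]; positivity
  obtain ⟨T1, hT1⟩ : ∃ T : ℝ, T = (24 * (N : ℝ) ^ 2 * (D + 1)) * (Nat.factorial 1 / c ^ 1) :=
    ⟨_, rfl⟩
  obtain ⟨T2, hT2⟩ : ∃ T : ℝ,
    T = (5120 * ((D : ℝ) + 1) * N * Ce) * (Nat.factorial 8 / (1 / 2) ^ 8) := ⟨_, rfl⟩
  obtain ⟨T3, hT3⟩ : ∃ T : ℝ, T = (32 * Ce) * (Nat.factorial 4 / (1 / 4) ^ 4) := ⟨_, rfl⟩
  obtain ⟨T4, hT4⟩ : ∃ T : ℝ, T = (192 * (N : ℝ) ^ 2 * (D + 1)) * (Nat.factorial 4 / c ^ 4) :=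
    ⟨_, rfl⟩
  have hT1' : 0 ≤ T1 := by rw [hT1]; positivity
  have hT2' : 0 ≤ T2 := by rw [hT2]; positivity
  have hT3' : 0 ≤ T3 := by rw [hT3]; positivity
  have hT4' : 0 ≤ T4 := by rw [hT4]; positivity
  refine ⟨1 + T1 + T2 + T3 + T4, by positivity, ?_⟩
  intro C hC ρ ε hρ hρ1 hε hε1 j hj B hB
  have hC1 : 1 ≤ C := by linarith
  have hC0 : 0 < C := by linarith
  obtain ⟨P, hP⟩ : ∃ P : ℝ, P = 2 ^ j := ⟨_, rfl⟩
  have hP1 : 1 ≤ P := by rw [hP]; exact one_le_pow₀ (by norm_num)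
  obtain ⟨x, hx⟩ : ∃ x : ℝ, x = ρ * P := ⟨_, rfl⟩
  have hx0 : 0 < x := by rw [hx]; positivity
  have hn : (2 : ℝ) ^ (j + 1) = 2 * P := by rw [pow_succ, hP]; ring
  rw [← hP] at hj hB
  rw [← hx] at hB
  rw [hn]
  obtain ⟨y, hy⟩ : ∃ y : ℝ, y = x / C := ⟨_, rfl⟩
  have hy0 : 0 < y := by rw [hy]; positivity
  have hPy : P ≤ (ε * y) ^ 2 := num_base hC0 hρ hε hP1 hj hx hy
  have hεy : 1 ≤ ε * y := by
    by_contra hcon
    push Not at hcon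
    have : (ε * y) ^ 2 < 1 := pow_lt_one₀ (by positivity) hcon (by norm_num)
    linarith
  have hy1 : 1 ≤ y := by nlinarith
  have hPy' : P ≤ y ^ 2 := hPy.trans (pow_le_pow_left₀ (by positivity) (by nlinarith) 2)
  have hcr := crad_le (D := D) hx0.le hB
  rw [← hc] at hcr
  have he0 := eps0_le D N B
  rw [← hCe] at he0
  have hexp : Real.exp (ρ * (2 * P) / 200) = Real.exp (x / 100) := by
    congr 1; rw [hx]; ring
  rw [hexp]
  have hcpos := crad_pos D B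
  have he : 0 ≤ eps0 D N B := by unfold eps0; positivity
  refine ⟨num1 hc0 hcr hx0.le hy hy1 ?_, num2 hCe0 hP1 hPy' he0 he hx0.le hB hy hy1 ?_,
    num3 hCe0 hP1 hPy' he0 he hx0.le hB hy hy1 ?_,
    num4 hc0 hP1 hPy hε hε1 hcr hx0.le hy hy1 ?_⟩
  · rw [← hT1]; linarith
  · rw [← hT2]; linarith
  · rw [← hT3]; linarith
  · rw [← hT4]; linarith

end Vale.Agent.P109.CH469
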