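import Vale.Agent.P109.CH469.Law

/-!
# P109, block S6a: local models are predictable
-/

open MeasureTheory Set Metric
open scoped ENNReal NNReal ContDiff

namespace Vale.Agent.P109.CH469

open Vale.Agent.P109.Coc

/-- the numerical statement used below -/
def NumStmt (D : ℕ) : Prop :=
  ∀ N : ℕ, 1 ≤ N → ∃ C₀ : ℝ, 0 < C₀ ∧ ∀ C ≥ C₀, ∀ ρ ε : ℝ, 0 < ρ → ρ ≤ 1 → 0 < ε → ε ≤ 1 →
    ∀ j : ℕ, (C / (ε * ρ)) ^ 2 ≤ 2 ^ j → ∀ B : ℕ, ρ * 2 ^ j ≤ B →
    12 * (N : ℝ) ^ 2 * crad D B ≤ 1 ∧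
    20 * ((D : ℝ) + 1) * ((2 : ℝ) ^ (j + 1) + 1) ^ 4 * Real.exp (ρ * 2 ^ (j + 1) / 200) ^ 2 * N *
      eps0 D N B ≤ 1 ∧
    2 * ((2 : ℝ) ^ (j + 1) + 1) ^ 2 * Real.exp (ρ * 2 ^ (j + 1) / 200) * eps0 D N B ≤
      crad D B ∧
    (2 : ℝ) ^ (j + 1) * ((2 : ℝ) ^ (j + 1) + 1) * (N * (6 * N * crad D B)) ≤ ε / 2

section

variable {A : Type} {D : ℕ} {M : Type} [MeasurableSpace M]

/-- the set of points with margins along the orbit -/
theorem exists_margin_set {p q : ℕ} {lab : (Fin q → Bool) → Fin p × A} {ν : Measure M}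
    [IsProbabilityMeasure ν] {S : M → M} (hS : MeasurePreserving S ν ν)
    (X : LocModel A D p q lab M ν S) {N e : ℝ} (hX : X.Regular N) (he : 0 < e) (he1 : e ≤ 1)
    (n : ℕ) : ∃ G₁ : Set M, MeasurableSet G₁ ∧ (∀ z ∈ G₁, ∀ t ≤ n, X.Marg N e (S^[t] z)) ∧
      ν G₁ᶜ ≤ (n + 1) * ENNReal.ofReal (N * e) := by
  set Bd : Set M := toMeasurable ν {z | ¬ X.Marg N e z} with hBd
  have hBm : MeasurableSet Bd := measurableSet_toMeasurable _ _
  have hBν : ν Bd ≤ ENNReal.ofReal (N * e) := by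
    rw [hBd, measure_toMeasurable]; exact hX.2 e he he1
  refine ⟨(⋃ t ∈ Finset.range (n + 1), S^[t] ⁻¹' Bd)ᶜ, ?_, ?_, ?_⟩
  · refine MeasurableSet.compl (Finset.measurableSet_biUnion _ fun t _ => ?_)
    exact (X.S_meas.iterate t) hBm
  · intro z hz t ht
    by_contra hcon
    apply hz
    refine mem_biUnion (x := t) (by simpa using Nat.lt_succ_of_le ht) ?_
    exact subset_toMeasurable ν _ hcon
  · rw [compl_compl]
    calc ν (⋃ t ∈ Finset.range (n + 1), S^[t] ⁻¹' Bd)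
        ≤ ∑ t ∈ Finset.range (n + 1), ν (S^[t] ⁻¹' Bd) := measure_biUnion_finset_le _ _
      _ = ∑ t ∈ Finset.range (n + 1), ν Bd := by
          refine Finset.sum_congr rfl fun t _ => ?_
          exact (hS.iterate t).measure_preimage hBm.nullMeasurableSet
      _ = (n + 1) * ν Bd := by simp
      _ ≤ (n + 1) * ENNReal.ofReal (N * e) := by gcongr

/-- Systems with regular local models are predictable. -/
theorem predictable_of_locModel' [Fintype A] [MeasurableSpace A] (hsh : ShadowStmt D)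
    (hnum : NumStmt D) (ν : Measure M) [IsProbabilityMeasure ν] (R : M ≃ᵐ M) {S : M → M}
    (hR : ⇑R = S) (hS : MeasurePreserving S ν ν)
    (H : ∀ β : M → A, Measurable β → ∀ ε : ℝ, 0 < ε →
      ∃ (p q : ℕ) (lab : (Fin q → Bool) → Fin p × A) (X : LocModel A D p q lab M ν S) (N : ℕ),
        X.Regular N ∧ ν {z | X.letter z ≠ β z} ≤ ENNReal.ofReal ε) :
    OV.Predictable (Fam : OV.Family A) ν S := by
  intro β hβ ε hε
  obtain ⟨p, q, lab, X, N₀, hreg, hne⟩ := H β hβ ε hε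
  refine ⟨X.letter, X.letter_meas, hne, ?_⟩
  set N : ℕ := N₀ + D + p + q + 1 with hNdef
  have hN : 1 ≤ N := by omega
  have hN' : (1 : ℝ) ≤ N := by exact_mod_cast hN
  have hX : X.Regular N := hreg.mono (by exact_mod_cast (by omega : N₀ ≤ N))
  obtain ⟨C₁, hC₁, hnumN⟩ := hnum N hN
  set Ca : ℝ := max (5120000 * (C443.C0 D N + 1) * (1 + 3 * Real.log N)) 1 with hCa
  have hCa1 : 1 ≤ Ca := le_max_right _ _
  set C : ℝ := 2 * Ca + C₁ with hC
  have hCpos : 0 < C := by positivity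
  refine ⟨N, C, hCpos, fun ρ ε' hρ hρ1 hε' hε'1 => ?_⟩
  obtain ⟨Bad, hBad, hacc⟩ := accounting_loc R hR hS X hX Ca (le_max_left _ _) ρ (ε' / 2) hρ hρ1
    (by positivity) (by linarith)
  refine ⟨Bad, hBad.trans ?_, fun j hj hjB B hB => ?_⟩
  · rw [div_mul_eq_mul_div, div_div_eq_mul_div]
    refine div_le_div_of_nonneg_right ?_ (by positivity)
    linarith
  have hj2 : (Ca / (ε' / 2 * ρ)) ^ 2 ≤ 2 ^ j := by
    refine le_trans ?_ hj
    have h1 : Ca / (ε' / 2 * ρ) = 2 * Ca / (ε' * ρ) := by field_simp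
    rw [h1]
    refine pow_le_pow_left₀ (by positivity) ?_ 2
    refine div_le_div_of_nonneg_right (by linarith) (by positivity)
  obtain ⟨G₀, hG₀m, hG₀g, hG₀Z⟩ := hacc j hj2 hjB
  obtain ⟨n1, n2, n3, n4⟩ := hnumN C (by linarith) ρ ε' hρ hρ1 hε' hε'1 j hj B hB
  have hc := crad_pos D B
  have he1 : 6 * (N : ℝ) * crad D B ≤ 1 := by nlinarith
  obtain ⟨G₁, hG₁m, hG₁g, hG₁ν⟩ := exists_margin_set hS X hX (e := 6 * N * crad D B)
    (by positivity) he1 (2 ^ (j + 1))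
  obtain ⟨L, hL, Ω', m', ν', hν', S', X', hdata, hLeq⟩ := exists_rep (N := N) (B := B)
    (by omega : D ≤ N) (by omega : p ≤ N) (by omega : q ≤ N) X (2 ^ (j + 1))
  refine ⟨L, hL, G₀ ∩ G₁, hG₀m.inter hG₁m, fun Z hZ hdisj => ?_, fun s => ?_⟩
  · have h1 := hG₀Z Z hZ hdisj
    have h2 : ν (Z \ (G₀ ∩ G₁)) ≤ ν (Z \ G₀) + ν G₁ᶜ := by
      refine (measure_mono ?_).trans (measure_union_le _ _)
      intro z hz
      by_cases hz0 : z ∈ G₀
      · right
        intro hz1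
        exact hz.2 ⟨hz0, hz1⟩
      · left
        exact ⟨hz.1, hz0⟩
    have h3 : (2 ^ (j + 1) : ℝ≥0∞) * ν G₁ᶜ ≤ ENNReal.ofReal (ε' / 2) := by
      calc (2 ^ (j + 1) : ℝ≥0∞) * ν G₁ᶜ
          ≤ 2 ^ (j + 1) * ((((2 : ℕ) ^ (j + 1) : ℕ) + 1) *
            ENNReal.ofReal (N * (6 * N * crad D B))) := by gcongr
        _ = ENNReal.ofReal ((2 : ℝ) ^ (j + 1) * ((2 : ℝ) ^ (j + 1) + 1) *
            (N * (6 * N * crad D B))) := by
            generalize (N : ℝ) * (6 * N * crad D B) = a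
            rw [ENNReal.ofReal_mul (by positivity), ENNReal.ofReal_mul (by positivity),
              ENNReal.ofReal_add (by positivity) (by norm_num),
              ENNReal.ofReal_pow (by norm_num), mul_assoc]
            norm_num
        _ ≤ ENNReal.ofReal (ε' / 2) := ENNReal.ofReal_le_ofReal n4
    calc (2 ^ (j + 1) : ℝ≥0∞) * ν (Z \ (G₀ ∩ G₁))
        ≤ 2 ^ (j + 1) * (ν (Z \ G₀) + ν G₁ᶜ) := by gcongr
      _ = 2 ^ (j + 1) * ν (Z \ G₀) + 2 ^ (j + 1) * ν G₁ᶜ := mul_add _ _ _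
      _ ≤ ENNReal.ofReal (ε' / 2) + ENNReal.ofReal (ε' / 2) := add_le_add h1 h3
      _ = ENNReal.ofReal ε' := by
          rw [← ENNReal.ofReal_add (by positivity) (by positivity)]
          congr 1
          ring
  · rw [hLeq]
    refine law_le (X := X) (X' := X') (K := Real.exp (ρ * 2 ^ (j + 1) / 200)) hsh hN hdata.symm
      ?_ n1 ?_ ?_ (hG₀m.inter hG₁m) (fun z hz => hG₁g z hz.2) (fun z hz => hG₀g z hz.1) s
    · exact Real.one_le_exp (by positivity)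
    · push_cast; exact n2
    · push_cast; exact n3

end

end Vale.Agent.P109.CH469
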