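import Vale.Agent.P109.CH469.Pred
import Vale.Agent.P109.CH469.Num
import Vale.Agent.P109.ST288.Shadow
import Vale.Agent.P109.H703.S4
import Vale.Agent.P109.F674.Final

/-!
# P109: smooth positive-volume systems are predictable
-/

open MeasureTheory Set Metric
open scoped ENNReal NNReal ContDiff Manifold

namespace Vale.Agent.P109.CH469

open Vale.Agent.P109.Smooth Vale.Agent.P109.H703

theorem shadowStmt (D : ℕ) : ShadowStmt D := by
  intro n K C₂ e₀ m hK hC he hsmall hm U hU f f' hf hf' hf2 h0 h1 A B hA hball hgood w w' hw hB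
  refine ST288.shadow (E := EE D) volume hK hC he ?_ hm U hU f f' hf hf' hf2 h0 h1 A B hA hball
    hgood w w' hw hB
  rw [show Module.finrank ℝ (EE D) = D from finrank_euclideanSpace_fin]
  exact hsmall

theorem numStmt (D : ℕ) : NumStmt D := fun N _ => num D N

/-- Systems with regular local models are predictable by the small family `Fam`. -/
theorem predictable_of_locModel {A : Type} {D : ℕ} {M : Type} [MeasurableSpace M] [Fintype A]
    [MeasurableSpace A] (ν : Measure M) [IsProbabilityMeasure ν] (R : M ≃ᵐ M) {S : M → M}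
    (hR : ⇑R = S) (hS : MeasurePreserving S ν ν)
    (H : ∀ β : M → A, Measurable β → ∀ ε : ℝ, 0 < ε →
      ∃ (p q : ℕ) (lab : (Fin q → Bool) → Fin p × A) (X : LocModel A D p q lab M ν S) (N : ℕ),
        X.Regular N ∧ ν {z | X.letter z ≠ β z} ≤ ENNReal.ofReal ε) :
    OV.Predictable (Fam : OV.Family A) ν S :=
  predictable_of_locModel' (shadowStmt D) (numStmt D) ν R hR hS H

/-- All smooth positive-volume systems on compact manifolds with model `I` are predictable by
the small family `Fam`. -/
theorem smoothSide (A : Type) [Fintype A] [Nonempty A] [MeasurableSpace A]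
    [MeasurableSingletonClass A] {d : ℕ} {H : Type} [TopologicalSpace H]
    (I : ModelWithCorners ℝ (EuclideanSpace ℝ (Fin d)) H) (hcol : Collar I) :
    SmoothSide (Fam : OV.Family A) I := by
  intro M _ _ _ _ ν _ S hM hν hS hpres
  obtain ⟨R, hR⟩ := hS.exists_measurableEquiv I
  refine predictable_of_locModel (D := d) ν R hR hpres fun β hβ ε hε => ?_
  exact exists_locModel I hcol hM hν hS β (fun a => hβ (measurableSet_singleton a)) hε

theorem smoothSide_boundaryless (A : Type) [Fintype A] [Nonempty A] [MeasurableSpace A]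
    [MeasurableSingletonClass A] (d : ℕ) : SmoothSide (Fam : OV.Family A) (𝓡 d) :=
  smoothSide A (𝓡 d) (collar_euclidean d)

theorem smoothSide_boundary (A : Type) [Fintype A] [Nonempty A] [MeasurableSpace A]
    [MeasurableSingletonClass A] (d : ℕ) [NeZero d] : SmoothSide (Fam : OV.Family A) (𝓡∂ d) :=
  smoothSide A (𝓡∂ d) (collar_halfSpace d)

/-- The disproof of Q1 from the symbolic side. -/
theorem final_of_symb (A : Type) [Fintype A] [Nonempty A] [MeasurableSpace A]
    [MeasurableSingletonClass A] (h : SymbSide (Fam : OV.Family A)) :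
    ∃ (X : Type) (_ : MeasurableSpace X) (_ : StandardBorelSpace X) (μ : Measure X)
      (_ : IsProbabilityMeasure μ) (T : X ≃ᵐ X), (∀ x, μ {x} = 0) ∧ Ergodic T μ ∧
      KS.ksEntropy μ T = 0 ∧ ¬ HasSmoothModel μ T :=
  final_of (Fam := (Fam : OV.Family A)) (smoothSide_boundaryless A)
    (fun d _ => smoothSide_boundary A d) h

end Vale.Agent.P109.CH469
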